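/-
Row 269, front ends, HOST-FREE LEAF  LF-T0-Conv :  plane convex geometry toolkit.        Sub-captain: helper113.
Imports only R269/Real.lean (`dotR`, `nvec`, `evec`).  Each statement is 10-50 lines.

HINTS.
* `t0_exit`: `t := sInf {s | 0 ≤ s ∧ m + s • v ∉ Ω}`; the set is closed, nonempty (Ω bounded, `v ≠ 0`), and does not contain a neighbourhood of `0`.
* `t0_clm_dot`: `x = x.1 • (1,0) + x.2 • (0,1)`.
* `t0_support`: `geometric_hahn_banach_open_point` for `interior K` (`Convex.interior`), then `K ⊆ closure (interior K)`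
  (`Convex.closure_interior_eq_closure_of_nonempty_interior`, `subset_closure`) and continuity; `t0_clm_dot`; `n ≠ 0` because `f a < f x₀`.
* `t0_tangent_support`: `s` is a maximum of `t ↦ dotR (c t) n`: `IsLocalMax.deriv_eq_zero`; the derivative is `dotR (deriv c s) n`
  (`HasDerivAt.prod`/`hasDerivAt_prodMk_iff` style: `(hc.hasDerivAt.fst)`, `.snd`).
* `t0_max_not_interior`: `x + ε • n ∈ K` for small `ε > 0`, and `dotR n n > 0`.
* `t0_unique_max`: `StrictConvex` puts the midpoint into `interior K`; `t0_max_not_interior`.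
* `t0_polar`: `Complex.arg` of `n.1 + n.2 i`  (`Complex.cos_arg`, `Complex.sin_arg`), or `Real.arctan`.
* `t0_chord`: `t0_exit` for `interior K` in the directions `v` and `-v` (any `v ≠ 0`).
-/
import Claimed.Agent.R269.Real

set_option autoImplicit false

namespace Claimed.Agent.R269

open Real

theorem t0_continuous_dot (n : ℝ × ℝ) : Continuous fun x : ℝ × ℝ => dotR x n := by
  unfold dotR
  fun_prop

theorem t0_dot_self_pos (n : ℝ × ℝ) (hn : n ≠ 0) : 0 < dotR n n := by
  unfold dotR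
  have : n.1 ≠ 0 ∨ n.2 ≠ 0 := by
    by_contra hcon
    push Not at hcon
    exact hn (Prod.ext hcon.1 hcon.2)
  rcases this with h | h
  · have := mul_self_pos.2 h
    nlinarith [mul_self_nonneg n.2]
  · have := mul_self_pos.2 h
    nlinarith [mul_self_nonneg n.1]

/-- a ray from a point of a bounded `IsOpen` set leaves the set through its frontier. -/
theorem t0_exit (Ω : Set (ℝ × ℝ)) (ho : IsOpen Ω) (hb : Bornology.IsBounded Ω) (m v : ℝ × ℝ) (hm : m ∈ Ω) (hv : v ≠ 0) :
    ∃ t : ℝ, 0 < t ∧ m + t • v ∈ frontier Ω ∧ ∀ s, 0 ≤ s → s < t → m + s • v ∈ Ω := by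
  set S : Set ℝ := {s | 0 ≤ s ∧ m + s • v ∉ Ω} with hS
  have hcont : Continuous fun s : ℝ => m + s • v := by fun_prop
  have hclosed : IsClosed S := by
    have h1 : IsClosed {s : ℝ | 0 ≤ s} := isClosed_Ici
    have h2 : IsClosed {s : ℝ | m + s • v ∉ Ω} := (ho.preimage hcont).isClosed_compl
    exact h1.inter h2
  have hne : S.Nonempty := by
    obtain ⟨R, hR⟩ := hb.subset_closedBall 0
    have hvn : 0 < ‖v‖ := norm_pos_iff.2 hv
    refine ⟨(R + ‖m‖ + 1) / ‖v‖ ⊔ 0, le_max_right _ _, fun hmem => ?_⟩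
    have h1 := hR hmem
    rw [mem_closedBall_zero_iff] at h1
    set s := (R + ‖m‖ + 1) / ‖v‖ ⊔ 0 with hs
    have h2 : R + ‖m‖ + 1 ≤ s * ‖v‖ := by
      have : (R + ‖m‖ + 1) / ‖v‖ ≤ s := le_max_left _ _
      rwa [div_le_iff₀ hvn] at this
    have h3 : ‖s • v‖ = s * ‖v‖ := by
      rw [norm_smul, Real.norm_eq_abs, abs_of_nonneg (le_max_right _ _)]
    have h4 : ‖s • v‖ ≤ ‖m + s • v‖ + ‖m‖ := by
      have := norm_sub_le (m + s • v) m
      simpa using this
    linarith
  have hbdd : BddBelow S := ⟨0, fun s hs => hs.1⟩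
  have htS : sInf S ∈ S := hclosed.csInf_mem hne hbdd
  have hlt : ∀ s, 0 ≤ s → s < sInf S → m + s • v ∈ Ω := by
    intro s hs0 hs
    by_contra hcon
    exact absurd (csInf_le hbdd ⟨hs0, hcon⟩) (not_le.2 hs)
  have hpos : 0 < sInf S := by
    rcases htS.1.lt_or_eq with h | h
    · exact h
    · exfalso
      apply htS.2
      rw [← h]
      simpa using hm
  refine ⟨sInf S, hpos, ?_, hlt⟩
  rw [frontier_eq_closure_inter_closure]
  refine ⟨?_, subset_closure htS.2⟩
  have h1 : Filter.Tendsto (fun s : ℝ => m + s • v) (nhdsWithin (sInf S) (Set.Iio (sInf S))) (nhds (m + sInf S • v)) :=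
    (hcont.tendsto _).mono_left nhdsWithin_le_nhds
  refine mem_closure_of_tendsto h1 ?_
  have : Set.Ioo 0 (sInf S) ∈ nhdsWithin (sInf S) (Set.Iio (sInf S)) := Ioo_mem_nhdsLT hpos
  filter_upwards [this] with s hs
  exact hlt s hs.1.le hs.2

theorem t0_clm_dot (f : ℝ × ℝ →L[ℝ] ℝ) (x : ℝ × ℝ) : f x = dotR x (f (1, 0), f (0, 1)) := by
  have : x = x.1 • ((1, 0) : ℝ × ℝ) + x.2 • ((0, 1) : ℝ × ℝ) := by
    ext <;> simp
  conv_lhs => rw [this]
  rw [map_add, map_smul, map_smul]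
  simp [dotR]

/-- supporting line at a non-interior point. -/
theorem t0_support (K : Set (ℝ × ℝ)) (hK : Convex ℝ K) (hi : (interior K).Nonempty) (x₀ : ℝ × ℝ)
    (hx : x₀ ∉ interior K) : ∃ n : ℝ × ℝ, n ≠ 0 ∧ ∀ x ∈ K, dotR x n ≤ dotR x₀ n := by
  obtain ⟨f, hf⟩ := geometric_hahn_banach_open_point hK.interior isOpen_interior hx
  refine ⟨(f (1, 0), f (0, 1)), ?_, ?_⟩
  · intro h0
    obtain ⟨a, ha⟩ := hi
    have := hf a ha
    rw [t0_clm_dot f a, t0_clm_dot f x₀, h0] at this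
    simp [dotR] at this
  · intro x hxK
    have h1 : x ∈ closure (interior K) := by
      rw [hK.closure_interior_eq_closure_of_nonempty_interior hi]
      exact subset_closure hxK
    have h2 : closure (interior K) ⊆ {y | f y ≤ f x₀} := by
      apply closure_minimal
      · intro y hy
        exact (hf y hy).le
      · exact isClosed_le f.continuous continuous_const
    have := h2 h1
    rw [Set.mem_ofPred_eq, t0_clm_dot f x, t0_clm_dot f x₀] at this
    exact this

theorem t0_hasDerivAt_fst {c : ℝ → ℝ × ℝ} {c' : ℝ × ℝ} {s : ℝ} (hc : HasDerivAt c c' s) :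
    HasDerivAt (fun t => (c t).1) c'.1 s :=
  (ContinuousLinearMap.fst ℝ ℝ ℝ).hasFDerivAt.comp_hasDerivAt s hc

theorem t0_hasDerivAt_snd {c : ℝ → ℝ × ℝ} {c' : ℝ × ℝ} {s : ℝ} (hc : HasDerivAt c c' s) :
    HasDerivAt (fun t => (c t).2) c'.2 s :=
  (ContinuousLinearMap.snd ℝ ℝ ℝ).hasFDerivAt.comp_hasDerivAt s hc

theorem t0_hasDerivAt_dot {c : ℝ → ℝ × ℝ} {c' : ℝ × ℝ} {s : ℝ} (hc : HasDerivAt c c' s) (n : ℝ × ℝ) :
    HasDerivAt (fun t => dotR (c t) n) (dotR c' n) s := by
  unfold dotR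
  exact ((t0_hasDerivAt_fst hc).mul_const _).add ((t0_hasDerivAt_snd hc).mul_const _)

/-- derivative of a maximal height along a curve vanishes. -/
theorem t0_deriv_dot_eq_zero (c : ℝ → ℝ × ℝ) (n : ℝ × ℝ) (s : ℝ) (hd : DifferentiableAt ℝ c s)
    (hmax : ∀ t, dotR (c t) n ≤ dotR (c s) n) : dotR (deriv c s) n = 0 := by
  have h1 : HasDerivAt (fun t => dotR (c t) n) (dotR (deriv c s) n) s := t0_hasDerivAt_dot hd.hasDerivAt n
  have h2 : IsLocalMax (fun t => dotR (c t) n) s := Filter.Eventually.of_forall hmax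
  have := h2.deriv_eq_zero
  rwa [h1.deriv] at this

/-- a differentiable curve inside `K` is tangent to the supporting line at a non-interior point. -/
theorem t0_tangent_support (K : Set (ℝ × ℝ)) (hK : Convex ℝ K) (hi : (interior K).Nonempty) (c : ℝ → ℝ × ℝ)
    (hc : ∀ t, c t ∈ K) (s : ℝ) (hd : DifferentiableAt ℝ c s) (hx : c s ∉ interior K) :
    ∃ n : ℝ × ℝ, n ≠ 0 ∧ (∀ x ∈ K, dotR x n ≤ dotR (c s) n) ∧ dotR (deriv c s) n = 0 := by
  obtain ⟨n, hn, hmax⟩ := t0_support K hK hi (c s) hx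
  exact ⟨n, hn, hmax, t0_deriv_dot_eq_zero c n s hd fun t => hmax _ (hc t)⟩

theorem t0_max_not_interior (K : Set (ℝ × ℝ)) (n x : ℝ × ℝ) (hn : n ≠ 0) (hmax : ∀ y ∈ K, dotR y n ≤ dotR x n) :
    x ∉ interior K := by
  intro hx
  have hcont : Continuous fun s : ℝ => x + s • n := by fun_prop
  have h1 : ∀ᶠ s in nhds (0 : ℝ), x + s • n ∈ interior K := by
    apply hcont.continuousAt.eventually
    simpa using isOpen_interior.mem_nhds hx
  have h2 : ∀ᶠ s in nhdsWithin (0 : ℝ) (Set.Ioi 0), x + s • n ∈ interior K := h1.filter_mono nhdsWithin_le_nhds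
  obtain ⟨s, hs1, hs2⟩ := (h2.and self_mem_nhdsWithin).exists
  have h3 := hmax _ (interior_subset hs1)
  have h4 := t0_dot_self_pos n hn
  have h5 : dotR (x + s • n) n = dotR x n + s * dotR n n := by
    simp only [dotR, Prod.fst_add, Prod.snd_add, Prod.smul_fst, Prod.smul_snd, smul_eq_mul]
    ring
  rw [h5] at h3
  have : 0 < s * dotR n n := mul_pos hs2 h4
  linarith

theorem t0_exists_max (K : Set (ℝ × ℝ)) (hK : IsCompact K) (hne : K.Nonempty) (n : ℝ × ℝ) :
    ∃ x ∈ K, ∀ y ∈ K, dotR y n ≤ dotR x n := by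
  obtain ⟨x, hx, hmax⟩ := hK.exists_isMaxOn hne (t0_continuous_dot n).continuousOn
  exact ⟨x, hx, fun y hy => hmax hy⟩

theorem t0_unique_max (K : Set (ℝ × ℝ)) (hK : StrictConvex ℝ K) (n x y : ℝ × ℝ) (hn : n ≠ 0) (hx : x ∈ K) (hy : y ∈ K)
    (hmx : ∀ z ∈ K, dotR z n ≤ dotR x n) (hmy : ∀ z ∈ K, dotR z n ≤ dotR y n) : x = y := by
  by_contra hne
  have h1 : (1 / 2 : ℝ) • x + (1 / 2 : ℝ) • y ∈ interior K :=
    hK hx hy hne (by norm_num) (by norm_num) (by norm_num)
  have hxy : dotR x n = dotR y n := le_antisymm (hmy x hx) (hmx y hy)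
  refine t0_max_not_interior K n _ hn (fun z hz => ?_) h1
  have h5 : dotR ((1 / 2 : ℝ) • x + (1 / 2 : ℝ) • y) n = (dotR x n + dotR y n) / 2 := by
    simp only [dotR, Prod.fst_add, Prod.snd_add, Prod.smul_fst, Prod.smul_snd, smul_eq_mul]
    ring
  rw [h5, ← hxy]
  have := hmx z hz
  linarith

theorem t0_polar (n : ℝ × ℝ) (hn : n ≠ 0) : ∃ (r θ : ℝ), 0 < r ∧ n = r • nvec θ := by
  set z : ℂ := ⟨n.1, n.2⟩ with hz
  have hz0 : z ≠ 0 := by
    intro h0
    apply hn
    have h1 := congrArg Complex.re h0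
    have h2 := congrArg Complex.im h0
    exact Prod.ext h1 h2
  refine ⟨‖z‖, Complex.arg z, norm_pos_iff.2 hz0, ?_⟩
  have h1 := Complex.norm_mul_cos_arg z
  have h2 := Complex.norm_mul_sin_arg z
  ext
  · simp only [nvec, Prod.smul_fst, smul_eq_mul]
    rw [h1]
  · simp only [nvec, Prod.smul_snd, smul_eq_mul]
    rw [h2]

/-- orthonormal expansion. -/
theorem t0_expand (x : ℝ × ℝ) (θ : ℝ) : x = dotR x (nvec θ) • nvec θ + dotR x (evec θ) • evec θ := by
  have h := sin_sq_add_cos_sq θ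
  ext
  · simp only [dotR, nvec, evec, Prod.fst_add, Prod.smul_fst, smul_eq_mul]
    linear_combination (-x.1) * h
  · simp only [dotR, nvec, evec, Prod.snd_add, Prod.smul_snd, smul_eq_mul]
    linear_combination (-x.2) * h

/-- a vector orthogonal to `n_θ` is a multiple of `e_θ`. -/
theorem t0_orth_nvec (x : ℝ × ℝ) (θ : ℝ) (h : dotR x (nvec θ) = 0) : x = dotR x (evec θ) • evec θ := by
  have := t0_expand x θ
  rw [h, zero_smul, zero_add] at this
  exact this

/-- every point of a compact convex set lies on a segment between two frontier points. -/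
theorem t0_chord (K : Set (ℝ × ℝ)) (hK : IsCompact K) (x : ℝ × ℝ) (hx : x ∈ K) :
    ∃ y ∈ frontier K, ∃ z ∈ frontier K, x ∈ segment ℝ y z := by
  by_cases hxi : x ∈ interior K
  · have hb : Bornology.IsBounded (interior K) := hK.isBounded.subset interior_subset
    have hv : ((1, 0) : ℝ × ℝ) ≠ 0 := by simp
    obtain ⟨t, ht, h1, -⟩ := t0_exit (interior K) isOpen_interior hb x (1, 0) hxi hv
    obtain ⟨s, hs, h2, -⟩ := t0_exit (interior K) isOpen_interior hb x (-(1, 0)) hxi (neg_ne_zero.2 hv)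
    refine ⟨_, frontier_interior_subset h1, _, frontier_interior_subset h2, ?_⟩
    refine ⟨s / (s + t), t / (s + t), by positivity, by positivity, by field_simp, ?_⟩
    have hst : s + t ≠ 0 := by positivity
    ext
    · simp only [Prod.fst_add, Prod.smul_fst, smul_eq_mul, Prod.fst_neg]
      field_simp
      ring
    · simp only [Prod.snd_add, Prod.smul_snd, smul_eq_mul, Prod.snd_neg]
      field_simp
      ring
  · have : x ∈ frontier K := ⟨subset_closure hx, hxi⟩
    exact ⟨x, this, x, this, left_mem_segment ℝ x x⟩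

/-- strict separation of a point from a closed convex set, in polar form. -/
theorem t0_separate (K : Set (ℝ × ℝ)) (hK : Convex ℝ K) (hc : IsClosed K) (x : ℝ × ℝ) (hx : x ∉ K) :
    ∃ θ : ℝ, ∀ y ∈ K, dotR y (nvec θ) < dotR x (nvec θ) := by
  obtain ⟨f, u, hf1, hf2⟩ := geometric_hahn_banach_closed_point hK hc hx
  by_cases hn : ((f (1, 0), f (0, 1)) : ℝ × ℝ) = 0
  · refine ⟨0, fun y hy => ?_⟩
    exfalso
    have h1 := hf1 y hy
    rw [t0_clm_dot f y, hn] at h1
    rw [t0_clm_dot f x, hn] at hf2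
    simp only [dotR, Prod.fst_zero, Prod.snd_zero, mul_zero, add_zero] at h1 hf2
    linarith
  · obtain ⟨r, θ, hr, e⟩ := t0_polar _ hn
    refine ⟨θ, fun y hy => ?_⟩
    have h1 := (hf1 y hy).trans hf2
    rw [t0_clm_dot f y, t0_clm_dot f x, e] at h1
    have a1 : ∀ w : ℝ × ℝ, dotR w (r • nvec θ) = r * dotR w (nvec θ) := by
      intro w
      simp only [dotR, Prod.smul_fst, Prod.smul_snd, smul_eq_mul]
      ring
    rw [a1, a1] at h1
    exact lt_of_mul_lt_mul_left h1 hr.le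

end Claimed.Agent.R269
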