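/-
Row 269 (S0510 + S0511), FRONT ENDS T0 / T0' : shared definitions.        Sub-captain: helper113.

ROUTE (both front ends):   frozen hypotheses  ⟹  `IsBdryParam` (T0a: support function `h`, normal angle `ν`)
                                              ⟹  `IsPhaseCollar h g` (T0b from the physical collar, T0p from the phase foliation)
                                              ⟹  `GlancingRigid h` (T0c).
The centre is `c₀ = 0` (the origin need NOT lie in the table: `IsSupport` does not ask `0 < h`).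

Conventions (Real.lean): `n_θ = nvec θ`, `e_θ = evec θ`; oriented line `(θ, p)`: velocity `e_θ`, equation `x · n_θ = p`.
`bpt h ψ = h ψ n_ψ + h' ψ e_ψ` is the boundary point with outward normal `n_ψ`, and
  `pIn h θ θ' = bpt h ((θ+θ')/2) · n_θ`,   `pOut h θ θ' = bpt h ((θ+θ')/2) · n_θ'`      (Model.lean).
A billiard STATE is the pair `(a, b)` of the angles of the incoming and the outgoing line at a collision point
`bpt h ((a+b)/2)`;  `0 < b - a < 2π`  (`wedge`).  The billiard map is `(a, b) ↦ (b, c)` with `pIn h b c = pOut h a b`.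
-/
import Claimed.Agent.R269.Real

set_option autoImplicit false

namespace Claimed.Agent.R269

open Real

/-- boundary point with outward normal `n_ψ`. -/
noncomputable def bpt (h : ℝ → ℝ) (ψ : ℝ) : ℝ × ℝ := h ψ • nvec ψ + deriv h ψ • evec ψ

/-- **Output of T0a.**  `h` = support function (centre `0`), `ν t` = angle of the outward normal at `γ t`,
`σ = ±1` = orientation of `γ` (`σ = 1`: counterclockwise). -/
structure IsBdryParam (Ω : Set (ℝ × ℝ)) (γ : ℝ → ℝ × ℝ) (L : ℝ) (h ν : ℝ → ℝ) (σ : ℝ) : Prop where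
  supp : IsSupport h
  table : Ω = tableOf 0 h
  sign : σ = 1 ∨ σ = -1
  cont : Continuous ν
  mono : StrictMono fun t => σ * ν t
  shift : ∀ t, ν (t + L) = ν t + σ * (2 * π)
  point : ∀ t, γ t = bpt h (ν t)
  tangent : ∀ t, ∃ c : ℝ, 0 < c ∧ deriv γ t = (σ * c) • evec (ν t)
  curv : ∀ t, 0 < σ * ((deriv γ t).1 * (deriv (deriv γ) t).2 - (deriv γ t).2 * (deriv (deriv γ) t).1)

/-- **Phase collar**: a one-sided neighbourhood of the glancing boundary `p = h θ` of the space of oriented lines is
filled by the continuous graphs `p = g b θ`, `0 ≤ b < 1`, strictly decreasing in `b`, each of them invariant under the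
billiard map (in generating-function form; only angular steps `< π` are considered). -/
structure IsPhaseCollar (h : ℝ → ℝ) (g : ℝ → ℝ → ℝ) : Prop where
  cont : ContinuousOn (fun x : ℝ × ℝ => g x.1 x.2) (Set.Ico (0 : ℝ) 1 ×ˢ Set.univ)
  zero : ∀ θ, g 0 θ = h θ
  periodic : ∀ b ∈ Set.Ico (0 : ℝ) 1, Function.Periodic (g b) (2 * π)
  anti : ∀ θ, StrictAntiOn (fun b => g b θ) (Set.Ico (0 : ℝ) 1)
  inv : ∀ b ∈ Set.Ioo (0 : ℝ) 1, ∀ θ θ' : ℝ, θ < θ' → θ' < θ + π →
    pIn h θ θ' = g b θ → pOut h θ θ' = g b θ'

/-- pairs (incoming angle, outgoing angle). -/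
def wedge : Set (ℝ × ℝ) := {w | w.1 < w.2 ∧ w.2 < w.1 + 2 * π}

end Claimed.Agent.R269
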