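/-
Row 269, front ends: CALCULUS OF `pIn`, `pOut` (consequences of `IsSupport h` only).        helper113.
-/
import Claimed.Agent.R269.T0.Defs

set_option autoImplicit false

namespace Claimed.Agent.R269

open Real

theorem t0_dot_nn (a b : ℝ) : dotR (nvec a) (nvec b) = cos (a - b) := by
  simp only [dotR, nvec, cos_sub]

theorem t0_dot_en (a b : ℝ) : dotR (evec a) (nvec b) = sin (b - a) := by
  simp only [dotR, evec, nvec, sin_sub]; ring

theorem t0_dot_ne (a b : ℝ) : dotR (nvec a) (evec b) = sin (a - b) := by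
  simp only [dotR, evec, nvec, sin_sub]; ring

theorem t0_dot_ee (a b : ℝ) : dotR (evec a) (evec b) = cos (a - b) := by
  simp only [dotR, evec, cos_sub]; ring

theorem t0_dot_add (u v w : ℝ × ℝ) : dotR (u + v) w = dotR u w + dotR v w := by
  simp only [dotR, Prod.fst_add, Prod.snd_add]; ring

theorem t0_dot_sub (u v w : ℝ × ℝ) : dotR (u - v) w = dotR u w - dotR v w := by
  simp only [dotR, Prod.fst_sub, Prod.snd_sub]; ring

theorem t0_dot_smul (c : ℝ) (u w : ℝ × ℝ) : dotR (c • u) w = c * dotR u w := by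
  simp only [dotR, Prod.smul_fst, Prod.smul_snd, smul_eq_mul]; ring

theorem t0_dot_comm (u w : ℝ × ℝ) : dotR u w = dotR w u := by
  simp only [dotR]; ring

theorem t0_bpt_dot (h : ℝ → ℝ) (ψ φ : ℝ) :
    dotR (bpt h ψ) (nvec φ) = h ψ * cos (φ - ψ) + deriv h ψ * sin (φ - ψ) := by
  rw [bpt, t0_dot_add, t0_dot_smul, t0_dot_smul, t0_dot_nn, t0_dot_en, ← cos_neg, neg_sub]

theorem t0_bpt_dot_self (h : ℝ → ℝ) (ψ : ℝ) : dotR (bpt h ψ) (nvec ψ) = h ψ := by
  rw [t0_bpt_dot]; simp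

theorem t0_pIn_eq (h : ℝ → ℝ) (θ θ' : ℝ) : pIn h θ θ' = dotR (bpt h ((θ + θ') / 2)) (nvec θ) := by
  rw [t0_bpt_dot, pIn]
  have e : θ - (θ + θ') / 2 = -((θ' - θ) / 2) := by ring
  rw [e, cos_neg, sin_neg]; ring

theorem t0_pOut_eq (h : ℝ → ℝ) (θ θ' : ℝ) : pOut h θ θ' = dotR (bpt h ((θ + θ') / 2)) (nvec θ') := by
  rw [t0_bpt_dot, pOut]
  have e : θ' - (θ + θ') / 2 = (θ' - θ) / 2 := by ring
  rw [e]

theorem t0_pIn_self (h : ℝ → ℝ) (θ : ℝ) : pIn h θ θ = h θ := by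
  simp [pIn]

theorem t0_pOut_self (h : ℝ → ℝ) (θ : ℝ) : pOut h θ θ = h θ := by
  simp [pOut]

theorem IsSupport.differentiable {h : ℝ → ℝ} (hs : IsSupport h) : Differentiable ℝ h :=
  hs.smooth.differentiable (by simp)

theorem IsSupport.contDiff_deriv {h : ℝ → ℝ} (hs : IsSupport h) :
    ContDiff ℝ ((⊤ : ℕ∞) : WithTop ℕ∞) (deriv h) :=
  (contDiff_infty_iff_deriv.1 hs.smooth).2

theorem IsSupport.differentiable_deriv {h : ℝ → ℝ} (hs : IsSupport h) : Differentiable ℝ (deriv h) :=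
  hs.contDiff_deriv.differentiable (by simp)

theorem IsSupport.continuous {h : ℝ → ℝ} (hs : IsSupport h) : Continuous h := hs.smooth.continuous

theorem IsSupport.continuous_deriv {h : ℝ → ℝ} (hs : IsSupport h) : Continuous (deriv h) :=
  hs.contDiff_deriv.continuous

theorem IsSupport.continuous_deriv2 {h : ℝ → ℝ} (hs : IsSupport h) : Continuous (deriv (deriv h)) :=
  ((contDiff_infty_iff_deriv.1 hs.contDiff_deriv).2).continuous

theorem IsSupport.deriv_periodic {h : ℝ → ℝ} (hs : IsSupport h) : Function.Periodic (deriv h) (2 * π) := by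
  intro x
  have e : (fun y => h (y + 2 * π)) = h := funext hs.periodic
  have h1 : deriv (fun y => h (y + 2 * π)) x = deriv h (x + 2 * π) := deriv_comp_add_const h (2 * π) x
  rw [← h1, e]

theorem IsSupport.deriv2_periodic {h : ℝ → ℝ} (hs : IsSupport h) :
    Function.Periodic (deriv (deriv h)) (2 * π) := by
  intro x
  have e : (fun y => deriv h (y + 2 * π)) = deriv h := funext hs.deriv_periodic
  have h1 : deriv (fun y => deriv h (y + 2 * π)) x = deriv (deriv h) (x + 2 * π) :=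
    deriv_comp_add_const (deriv h) (2 * π) x
  rw [← h1, e]

theorem t0_bpt_periodic {h : ℝ → ℝ} (hs : IsSupport h) (ψ : ℝ) : bpt h (ψ + 2 * π) = bpt h ψ := by
  simp only [bpt, hs.periodic ψ, hs.deriv_periodic ψ, nvec, evec, cos_add_two_pi, sin_add_two_pi]

theorem t0_pIn_shift {h : ℝ → ℝ} (hs : IsSupport h) (θ θ' : ℝ) :
    pIn h (θ + 2 * π) (θ' + 2 * π) = pIn h θ θ' := by
  have e1 : (θ + 2 * π + (θ' + 2 * π)) / 2 = (θ + θ') / 2 + 2 * π := by ring
  have e2 : (θ' + 2 * π - (θ + 2 * π)) / 2 = (θ' - θ) / 2 := by ring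
  simp only [pIn, e1, e2, hs.periodic _, hs.deriv_periodic _]

theorem t0_pOut_shift {h : ℝ → ℝ} (hs : IsSupport h) (θ θ' : ℝ) :
    pOut h (θ + 2 * π) (θ' + 2 * π) = pOut h θ θ' := by
  have e1 : (θ + 2 * π + (θ' + 2 * π)) / 2 = (θ + θ') / 2 + 2 * π := by ring
  have e2 : (θ' + 2 * π - (θ + 2 * π)) / 2 = (θ' - θ) / 2 := by ring
  simp only [pOut, e1, e2, hs.periodic _, hs.deriv_periodic _]

theorem t0_pIn_two_pi (h : ℝ → ℝ) (θ : ℝ) : pIn h θ (θ + 2 * π) = -h (θ + π) := by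
  have e1 : (θ + (θ + 2 * π)) / 2 = θ + π := by ring
  have e2 : (θ + 2 * π - θ) / 2 = π := by ring
  simp [pIn, e1]

theorem t0_pOut_two_pi {h : ℝ → ℝ} (hs : IsSupport h) (θ' : ℝ) : pOut h (θ' - 2 * π) θ' = -h (θ' + π) := by
  have e1 : (θ' - 2 * π + θ') / 2 = θ' - π := by ring
  have e2 : (θ' - (θ' - 2 * π)) / 2 = π := by ring
  have e3 : h (θ' + π) = h (θ' - π) := by
    have := hs.periodic (θ' - π)
    rw [← this]; congr 1; ring
  simp [pOut, e1, e3]

theorem t0_continuous_pIn {h : ℝ → ℝ} (hs : IsSupport h) : Continuous fun x : ℝ × ℝ => pIn h x.1 x.2 := by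
  unfold pIn
  have := hs.continuous
  have := hs.continuous_deriv
  fun_prop

theorem t0_continuous_pOut {h : ℝ → ℝ} (hs : IsSupport h) : Continuous fun x : ℝ × ℝ => pOut h x.1 x.2 := by
  unfold pOut
  have := hs.continuous
  have := hs.continuous_deriv
  fun_prop

/-- `∂ pIn / ∂ θ' = - (r ψ / 2) sin d`. -/
theorem t0_hasDerivAt_pIn_snd {h : ℝ → ℝ} (hs : IsSupport h) (θ θ' : ℝ) :
    HasDerivAt (fun x => pIn h θ x)
      (-(1 / 2) * (h ((θ + θ') / 2) + deriv (deriv h) ((θ + θ') / 2)) * sin ((θ' - θ) / 2)) θ' := by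
  have hψ : HasDerivAt (fun x : ℝ => (θ + x) / 2) (1 / 2) θ' := by
    simpa using ((hasDerivAt_id θ').const_add θ).div_const 2
  have hd : HasDerivAt (fun x : ℝ => (x - θ) / 2) (1 / 2) θ' := by
    simpa using ((hasDerivAt_id θ').sub_const θ).div_const 2
  have h1 : HasDerivAt (fun x => h ((θ + x) / 2)) (deriv h ((θ + θ') / 2) * (1 / 2)) θ' :=
    (hs.differentiable _).hasDerivAt.comp θ' hψ
  have h2 : HasDerivAt (fun x => deriv h ((θ + x) / 2)) (deriv (deriv h) ((θ + θ') / 2) * (1 / 2)) θ' :=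
    (hs.differentiable_deriv _).hasDerivAt.comp θ' hψ
  have h3 : HasDerivAt (fun x => cos ((x - θ) / 2)) (-sin ((θ' - θ) / 2) * (1 / 2)) θ' :=
    (hasDerivAt_cos _).comp θ' hd
  have h4 : HasDerivAt (fun x => sin ((x - θ) / 2)) (cos ((θ' - θ) / 2) * (1 / 2)) θ' :=
    (hasDerivAt_sin _).comp θ' hd
  have := (h1.mul h3).sub (h2.mul h4)
  refine this.congr_deriv ?_
  ring

/-- `∂ pOut / ∂ θ = (r ψ / 2) sin d`. -/
theorem t0_hasDerivAt_pOut_fst {h : ℝ → ℝ} (hs : IsSupport h) (θ θ' : ℝ) :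
    HasDerivAt (fun x => pOut h x θ')
      ((1 / 2) * (h ((θ + θ') / 2) + deriv (deriv h) ((θ + θ') / 2)) * sin ((θ' - θ) / 2)) θ := by
  have hψ : HasDerivAt (fun x : ℝ => (x + θ') / 2) (1 / 2) θ := by
    simpa using ((hasDerivAt_id θ).add_const θ').div_const 2
  have hd : HasDerivAt (fun x : ℝ => (θ' - x) / 2) (-(1 / 2)) θ := by
    have := ((hasDerivAt_id θ).const_sub θ').div_const 2
    refine this.congr_deriv ?_
    ring
  have h1 : HasDerivAt (fun x => h ((x + θ') / 2)) (deriv h ((θ + θ') / 2) * (1 / 2)) θ :=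
    (hs.differentiable _).hasDerivAt.comp θ hψ
  have h2 : HasDerivAt (fun x => deriv h ((x + θ') / 2)) (deriv (deriv h) ((θ + θ') / 2) * (1 / 2)) θ :=
    (hs.differentiable_deriv _).hasDerivAt.comp θ hψ
  have h3 : HasDerivAt (fun x => cos ((θ' - x) / 2)) (-sin ((θ' - θ) / 2) * (-(1 / 2))) θ :=
    (hasDerivAt_cos _).comp θ hd
  have h4 : HasDerivAt (fun x => sin ((θ' - x) / 2)) (cos ((θ' - θ) / 2) * (-(1 / 2))) θ :=
    (hasDerivAt_sin _).comp θ hd
  have := (h1.mul h3).add (h2.mul h4)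
  refine this.congr_deriv ?_
  ring

/-- **twist**, forward. -/
theorem t0_pIn_strictAntiOn {h : ℝ → ℝ} (hs : IsSupport h) (θ : ℝ) :
    StrictAntiOn (fun x => pIn h θ x) (Set.Icc θ (θ + 2 * π)) := by
  apply strictAntiOn_of_deriv_neg (convex_Icc _ _)
  · exact fun x _ => (t0_hasDerivAt_pIn_snd hs θ x).continuousAt.continuousWithinAt
  · intro x hx
    rw [interior_Icc] at hx
    rw [(t0_hasDerivAt_pIn_snd hs θ x).deriv]
    have h1 := hs.radius_pos ((θ + x) / 2)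
    have h2 : 0 < sin ((x - θ) / 2) := sin_pos_of_pos_of_lt_pi (by linarith [hx.1]) (by linarith [hx.2])
    have := mul_pos h1 h2
    nlinarith

/-- **twist**, backward. -/
theorem t0_pOut_strictMonoOn {h : ℝ → ℝ} (hs : IsSupport h) (θ' : ℝ) :
    StrictMonoOn (fun x => pOut h x θ') (Set.Icc (θ' - 2 * π) θ') := by
  apply strictMonoOn_of_deriv_pos (convex_Icc _ _)
  · exact fun x _ => (t0_hasDerivAt_pOut_fst hs x θ').continuousAt.continuousWithinAt
  · intro x hx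
    rw [interior_Icc] at hx
    rw [(t0_hasDerivAt_pOut_fst hs x θ').deriv]
    have h1 := hs.radius_pos ((x + θ') / 2)
    have h2 : 0 < sin ((θ' - x) / 2) := sin_pos_of_pos_of_lt_pi (by linarith [hx.2]) (by linarith [hx.1])
    have := mul_pos h1 h2
    nlinarith

theorem t0_pIn_lt {h : ℝ → ℝ} (hs : IsSupport h) {θ θ' : ℝ} (h1 : θ < θ') (h2 : θ' ≤ θ + 2 * π) :
    pIn h θ θ' < h θ := by
  have := t0_pIn_strictAntiOn hs θ (a := θ) (b := θ') ⟨le_rfl, by linarith [pi_pos]⟩ ⟨h1.le, h2⟩ h1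
  simpa [t0_pIn_self] using this

theorem t0_pOut_lt {h : ℝ → ℝ} (hs : IsSupport h) {θ θ' : ℝ} (h1 : θ < θ') (h2 : θ' ≤ θ + 2 * π) :
    pOut h θ θ' < h θ' := by
  have := t0_pOut_strictMonoOn hs θ' (a := θ) (b := θ') ⟨by linarith, h1.le⟩ ⟨by linarith [pi_pos], le_rfl⟩ h1
  simpa [t0_pOut_self] using this

theorem t0_nvec_add_int (φ : ℝ) (n : ℤ) : nvec (φ + n * (2 * π)) = nvec φ := by
  simp only [nvec, cos_add_int_mul_two_pi, sin_add_int_mul_two_pi]

theorem t0_evec_add_int (φ : ℝ) (n : ℤ) : evec (φ + n * (2 * π)) = evec φ := by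
  simp only [evec, cos_add_int_mul_two_pi, sin_add_int_mul_two_pi]

theorem IsSupport.add_int {h : ℝ → ℝ} (hs : IsSupport h) (φ : ℝ) (n : ℤ) : h (φ + n * (2 * π)) = h φ :=
  hs.periodic.int_mul n φ

/-- the boundary point `bpt h ψ` is the STRICT maximiser of `x · n_ψ`. -/
theorem t0_bpt_dot_lt {h : ℝ → ℝ} (hs : IsSupport h) (ψ φ : ℝ) (hne : ∀ n : ℤ, φ ≠ ψ + n * (2 * π)) :
    dotR (bpt h ψ) (nvec φ) < h φ := by
  have h2π : (0 : ℝ) < 2 * π := by positivity
  obtain ⟨n, t, ht0, ht1, hφ⟩ : ∃ (n : ℤ) (t : ℝ), 0 ≤ t ∧ t < 2 * π ∧ φ = ψ + t + n * (2 * π) := by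
    refine ⟨toIcoDiv h2π 0 (φ - ψ), toIcoMod h2π 0 (φ - ψ), ?_, ?_, ?_⟩
    · exact (toIcoMod_mem_Ico h2π 0 (φ - ψ)).1
    · simpa using (toIcoMod_mem_Ico h2π 0 (φ - ψ)).2
    · have := toIcoMod_add_toIcoDiv_zsmul h2π 0 (φ - ψ)
      rw [zsmul_eq_mul] at this
      linarith
  have ht : 0 < t := by
    rcases ht0.lt_or_eq with h0 | h0
    · exact h0
    · exact absurd (by rw [hφ, ← h0]; ring) (hne n)
  rw [hφ, t0_nvec_add_int, hs.add_int]
  by_cases hc : t ≤ π
  · have := t0_pOut_lt hs (θ := ψ - t) (θ' := ψ + t) (by linarith) (by linarith)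
    rw [t0_pOut_eq] at this
    have e : (ψ - t + (ψ + t)) / 2 = ψ := by ring
    rwa [e] at this
  · push Not at hc
    have := t0_pIn_lt hs (θ := ψ + t - 2 * π) (θ' := ψ - t + 2 * π) (by linarith) (by linarith)
    rw [t0_pIn_eq] at this
    have e : (ψ + t - 2 * π + (ψ - t + 2 * π)) / 2 = ψ := by ring
    rw [e] at this
    have e2 : ψ + t - 2 * π = ψ + t + ((-1 : ℤ) : ℝ) * (2 * π) := by push_cast; ring
    rwa [e2, t0_nvec_add_int, hs.add_int] at this

theorem t0_evec_inj {x y : ℝ} (h : evec x = evec y) : ∃ n : ℤ, x = y + n * (2 * π) := by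
  have h1 : sin x = sin y := by
    have := congrArg Prod.fst h
    simpa [evec] using this
  have h2 : cos x = cos y := by
    have := congrArg Prod.snd h
    simpa [evec] using this
  have h3 : (x : Real.Angle) = y := Real.Angle.cos_sin_inj (by simpa using h2) (by simpa using h1)
  obtain ⟨k, hk⟩ := Real.Angle.angle_eq_iff_two_pi_dvd_sub.1 h3
  exact ⟨k, by linarith⟩

theorem t0_nvec_inj {x y : ℝ} (h : nvec x = nvec y) : ∃ n : ℤ, x = y + n * (2 * π) := by
  have h1 : cos x = cos y := by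
    have := congrArg Prod.fst h
    simpa [nvec] using this
  have h2 : sin x = sin y := by
    have := congrArg Prod.snd h
    simpa [nvec] using this
  have h3 : (x : Real.Angle) = y := Real.Angle.cos_sin_inj (by simpa using h1) (by simpa using h2)
  obtain ⟨k, hk⟩ := Real.Angle.angle_eq_iff_two_pi_dvd_sub.1 h3
  exact ⟨k, by linarith⟩

theorem t0_nvec_ne_zero (θ : ℝ) : nvec θ ≠ 0 := by
  intro h
  have h1 : cos θ = 0 := by simpa [nvec] using congrArg Prod.fst h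
  have h2 : sin θ = 0 := by simpa [nvec] using congrArg Prod.snd h
  have := sin_sq_add_cos_sq θ
  rw [h1, h2] at this
  norm_num at this

theorem t0_evec_ne_zero (θ : ℝ) : evec θ ≠ 0 := by
  intro h
  have h1 : sin θ = 0 := by simpa [evec] using congrArg Prod.fst h
  have h2 : cos θ = 0 := by simpa [evec] using congrArg Prod.snd h
  have := sin_sq_add_cos_sq θ
  rw [h1, h2] at this
  norm_num at this

end Claimed.Agent.R269
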