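/-
Row 269, front ends: THE BILLIARD MAP ON PAIRS OF CONSECUTIVE ANGLES (consequences of `IsSupport h` only).     helper113.
`nxt h a b` = the angle `c ∈ (b, b + 2π)` with `pIn h b c = pOut h a b`;   `lineMap h (a, b) = (b, nxt h a b)`.
-/
import Claimed.Agent.R269.T0.Model

set_option autoImplicit false

namespace Claimed.Agent.R269

open Real Filter Topology

/-- continuity of the zero of a strictly decreasing family. -/
theorem t0_cont_of_anti {X : Type*} [TopologicalSpace X] (F : X → ℝ → ℝ)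
    (hF : ∀ t, Continuous fun x => F x t) (c lo hi : X → ℝ) (S : Set X) (x₀ : X) (hx₀ : x₀ ∈ S)
    (hlo : ContinuousWithinAt lo S x₀) (hhi : ContinuousWithinAt hi S x₀)
    (hanti : ∀ x ∈ S, StrictAntiOn (F x) (Set.Icc (lo x) (hi x)))
    (hc : ∀ x ∈ S, lo x < c x ∧ c x < hi x ∧ F x (c x) = 0) : ContinuousWithinAt c S x₀ := by
  obtain ⟨h1, h2, h3⟩ := hc x₀ hx₀
  refine tendsto_order.2 ⟨fun a ha => ?_, fun a ha => ?_⟩
  · obtain ⟨t, ht1, ht2⟩ := exists_between (max_lt ha h1)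
    have hta : a < t := lt_of_le_of_lt (le_max_left _ _) ht1
    have htl : lo x₀ < t := lt_of_le_of_lt (le_max_right _ _) ht1
    have hpos : 0 < F x₀ t := by
      have := hanti x₀ hx₀ ⟨htl.le, (ht2.trans h2).le⟩ ⟨h1.le, h2.le⟩ ht2
      rwa [h3] at this
    have e1 : ∀ᶠ x in 𝓝[S] x₀, 0 < F x t :=
      ((hF t).continuousAt.continuousWithinAt (s := S)).eventually (lt_mem_nhds hpos)
    have e2 : ∀ᶠ x in 𝓝[S] x₀, lo x < t := hlo.eventually (gt_mem_nhds htl)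
    have e3 : ∀ᶠ x in 𝓝[S] x₀, t < hi x := hhi.eventually (lt_mem_nhds (ht2.trans h2))
    filter_upwards [e1, e2, e3, self_mem_nhdsWithin] with x x1 x2 x3 xS
    obtain ⟨c1, c2, c3⟩ := hc x xS
    by_contra hcon
    push Not at hcon
    have hle : c x ≤ t := hcon.trans hta.le
    have := (hanti x xS).antitoneOn ⟨c1.le, c2.le⟩ ⟨x2.le, x3.le⟩ hle
    rw [c3] at this
    linarith
  · obtain ⟨t, ht1, ht2⟩ := exists_between (lt_min ha h2)
    have hta : t < a := lt_of_lt_of_le ht2 (min_le_left _ _)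
    have hth : t < hi x₀ := lt_of_lt_of_le ht2 (min_le_right _ _)
    have hneg : F x₀ t < 0 := by
      have := hanti x₀ hx₀ ⟨h1.le, h2.le⟩ ⟨(h1.trans ht1).le, hth.le⟩ ht1
      rwa [h3] at this
    have e1 : ∀ᶠ x in 𝓝[S] x₀, F x t < 0 :=
      ((hF t).continuousAt.continuousWithinAt (s := S)).eventually (gt_mem_nhds hneg)
    have e2 : ∀ᶠ x in 𝓝[S] x₀, lo x < t := hlo.eventually (gt_mem_nhds (h1.trans ht1))
    have e3 : ∀ᶠ x in 𝓝[S] x₀, t < hi x := hhi.eventually (lt_mem_nhds hth)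
    filter_upwards [e1, e2, e3, self_mem_nhdsWithin] with x x1 x2 x3 xS
    obtain ⟨c1, c2, c3⟩ := hc x xS
    by_contra hcon
    push Not at hcon
    have hle : t ≤ c x := hta.le.trans hcon
    have := (hanti x xS).antitoneOn ⟨x2.le, x3.le⟩ ⟨c1.le, c2.le⟩ hle
    rw [c3] at this
    linarith

theorem t0_pOut_gt {h : ℝ → ℝ} (hs : IsSupport h) {a b : ℝ} (h1 : a ≤ b) (h2 : b < a + 2 * π) :
    -h (b + π) < pOut h a b := by
  have := t0_pOut_strictMonoOn hs b (a := b - 2 * π) (b := a) ⟨le_rfl, by linarith [pi_pos]⟩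
    ⟨by linarith, h1⟩ (by linarith)
  simpa [t0_pOut_two_pi hs] using this

theorem t0_pIn_gt {h : ℝ → ℝ} (hs : IsSupport h) {b c : ℝ} (h1 : b ≤ c) (h2 : c < b + 2 * π) :
    -h (b + π) < pIn h b c := by
  have := t0_pIn_strictAntiOn hs b (a := c) (b := b + 2 * π) ⟨h1, h2.le⟩
    ⟨by linarith [pi_pos], le_rfl⟩ h2
  simpa [t0_pIn_two_pi] using this

/-- every line `(b, p)` with `-h (b + π) < p < h b` has a forward reflection. -/
theorem t0_exists_pIn {h : ℝ → ℝ} (hs : IsSupport h) (b p : ℝ) (h1 : -h (b + π) < p) (h2 : p < h b) :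
    ∃ c, b < c ∧ c < b + 2 * π ∧ pIn h b c = p := by
  have hc : ContinuousOn (fun x => pIn h b x) (Set.Icc b (b + 2 * π)) :=
    fun x _ => (t0_hasDerivAt_pIn_snd hs b x).continuousAt.continuousWithinAt
  have := intermediate_value_Icc' (by linarith [pi_pos] : b ≤ b + 2 * π) hc
  obtain ⟨c, hc1, hc2⟩ := this (show p ∈ Set.Icc (pIn h b (b + 2 * π)) (pIn h b b) by
    rw [t0_pIn_two_pi, t0_pIn_self]; exact ⟨h1.le, h2.le⟩)
  simp only at hc2
  refine ⟨c, lt_of_le_of_ne hc1.1 ?_, lt_of_le_of_ne hc1.2 ?_, hc2⟩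
  · rintro rfl
    rw [t0_pIn_self] at hc2; linarith
  · rintro rfl
    rw [t0_pIn_two_pi] at hc2; linarith

/-- every line `(b, p)` with `-h (b + π) < p < h b` has a backward reflection. -/
theorem t0_exists_pOut {h : ℝ → ℝ} (hs : IsSupport h) (b p : ℝ) (h1 : -h (b + π) < p) (h2 : p < h b) :
    ∃ a, a < b ∧ b < a + 2 * π ∧ pOut h a b = p := by
  have hc : ContinuousOn (fun x => pOut h x b) (Set.Icc (b - 2 * π) b) :=
    fun x _ => (t0_hasDerivAt_pOut_fst hs x b).continuousAt.continuousWithinAt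
  have := intermediate_value_Icc (by linarith [pi_pos] : b - 2 * π ≤ b) hc
  obtain ⟨a, ha1, ha2⟩ := this (show p ∈ Set.Icc (pOut h (b - 2 * π) b) (pOut h b b) by
    rw [t0_pOut_two_pi hs, t0_pOut_self]; exact ⟨h1.le, h2.le⟩)
  simp only at ha2
  refine ⟨a, lt_of_le_of_ne ha1.2 ?_, ?_, ha2⟩
  · rintro rfl
    rw [t0_pOut_self] at ha2; linarith
  · have : b - 2 * π ≠ a := by
      rintro rfl
      rw [t0_pOut_two_pi hs] at ha2; linarith
    have := lt_of_le_of_ne ha1.1 this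
    linarith

open Classical in
/-- the next angle. -/
noncomputable def nxt (h : ℝ → ℝ) (a b : ℝ) : ℝ :=
  if H : ∃ c, b < c ∧ c < b + 2 * π ∧ pIn h b c = pOut h a b then H.choose else b + π

theorem t0_nxt_spec {h : ℝ → ℝ} (hs : IsSupport h) {a b : ℝ} (hab : (a, b) ∈ wedge) :
    b < nxt h a b ∧ nxt h a b < b + 2 * π ∧ pIn h b (nxt h a b) = pOut h a b := by
  have H := t0_exists_pIn hs b (pOut h a b) (t0_pOut_gt hs hab.1.le hab.2) (t0_pOut_lt hs hab.1 hab.2.le)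
  unfold nxt
  rw [dif_pos H]
  exact H.choose_spec

theorem t0_pIn_inj {h : ℝ → ℝ} (hs : IsSupport h) {b c c' : ℝ} (h1 : b ≤ c) (h2 : c ≤ b + 2 * π)
    (h1' : b ≤ c') (h2' : c' ≤ b + 2 * π) (e : pIn h b c = pIn h b c') : c = c' :=
  (t0_pIn_strictAntiOn hs b).injOn ⟨h1, h2⟩ ⟨h1', h2'⟩ e

theorem t0_pOut_inj {h : ℝ → ℝ} (hs : IsSupport h) {a a' b : ℝ} (h1 : a ≤ b) (h2 : b ≤ a + 2 * π)
    (h1' : a' ≤ b) (h2' : b ≤ a' + 2 * π) (e : pOut h a b = pOut h a' b) : a = a' :=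
  (t0_pOut_strictMonoOn hs b).injOn ⟨by linarith, h1⟩ ⟨by linarith, h1'⟩ e

theorem t0_nxt_unique {h : ℝ → ℝ} (hs : IsSupport h) {a b c : ℝ} (hab : (a, b) ∈ wedge) (h1 : b ≤ c)
    (h2 : c ≤ b + 2 * π) (e : pIn h b c = pOut h a b) : nxt h a b = c := by
  obtain ⟨n1, n2, n3⟩ := t0_nxt_spec hs hab
  exact t0_pIn_inj hs n1.le n2.le h1 h2 (n3.trans e.symm)

/-- **twist**: for a fixed outgoing angle the next angle is strictly decreasing in the incoming angle. -/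
theorem t0_nxt_anti {h : ℝ → ℝ} (hs : IsSupport h) {a a' b : ℝ} (ha : (a, b) ∈ wedge) (ha' : (a', b) ∈ wedge)
    (hlt : a < a') : nxt h a' b < nxt h a b := by
  obtain ⟨n1, n2, n3⟩ := t0_nxt_spec hs ha
  obtain ⟨m1, m2, m3⟩ := t0_nxt_spec hs ha'
  have h1 : pOut h a b < pOut h a' b :=
    t0_pOut_strictMonoOn hs b ⟨by linarith [ha.2], ha.1.le⟩ ⟨by linarith [ha'.2], ha'.1.le⟩ hlt
  rw [← n3, ← m3] at h1
  exact (t0_pIn_strictAntiOn hs b).lt_iff_gt ⟨n1.le, n2.le⟩ ⟨m1.le, m2.le⟩ |>.1 h1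

theorem t0_wedge_shift {w : ℝ × ℝ} (hw : w ∈ wedge) (t : ℝ) : w + (t, t) ∈ wedge := by
  obtain ⟨h1, h2⟩ := hw
  constructor
  · simp only [Prod.fst_add, Prod.snd_add]; linarith
  · simp only [Prod.fst_add, Prod.snd_add]; linarith

theorem t0_nxt_shift {h : ℝ → ℝ} (hs : IsSupport h) {a b : ℝ} (hab : (a, b) ∈ wedge) :
    nxt h (a + 2 * π) (b + 2 * π) = nxt h a b + 2 * π := by
  obtain ⟨n1, n2, n3⟩ := t0_nxt_spec hs hab
  apply t0_nxt_unique hs (t0_wedge_shift hab (2 * π)) (by linarith) (by linarith)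
  rw [t0_pIn_shift hs, t0_pOut_shift hs, n3]

theorem t0_isOpen_wedge : IsOpen wedge := by
  apply IsOpen.inter
  · exact isOpen_lt continuous_fst continuous_snd
  · exact isOpen_lt continuous_snd (by fun_prop)

theorem t0_nxt_continuousOn {h : ℝ → ℝ} (hs : IsSupport h) :
    ContinuousOn (fun w : ℝ × ℝ => nxt h w.1 w.2) wedge := by
  intro w₀ hw₀
  refine t0_cont_of_anti (fun w t => pIn h w.2 t - pOut h w.1 w.2) ?_ _ (fun w => w.2)
    (fun w => w.2 + 2 * π) wedge w₀ hw₀ (by fun_prop) (by fun_prop) ?_ ?_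
  · intro t
    have h1 := t0_continuous_pIn hs
    have h2 := t0_continuous_pOut hs
    have h3 : Continuous fun w : ℝ × ℝ => pIn h w.2 t :=
      h1.comp (continuous_snd.prodMk continuous_const)
    exact h3.sub h2
  · intro w _ x hx y hy hxy
    have := t0_pIn_strictAntiOn hs w.2 hx hy hxy
    simp only at this ⊢
    linarith
  · intro w hw
    obtain ⟨n1, n2, n3⟩ := t0_nxt_spec hs (a := w.1) (b := w.2) hw
    exact ⟨n1, n2, by rw [n3]; ring⟩

/-- every state has a predecessor. -/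
theorem t0_exists_prev {h : ℝ → ℝ} (hs : IsSupport h) {b c : ℝ} (hbc : (b, c) ∈ wedge) :
    ∃ a, (a, b) ∈ wedge ∧ nxt h a b = c := by
  obtain ⟨a, a1, a2, a3⟩ := t0_exists_pOut hs b (pIn h b c) (t0_pIn_gt hs hbc.1.le hbc.2)
    (t0_pIn_lt hs hbc.1 hbc.2.le)
  exact ⟨a, ⟨a1, a2⟩, t0_nxt_unique hs ⟨a1, a2⟩ hbc.1.le hbc.2.le a3.symm⟩

/-- the billiard map on pairs of consecutive angles. -/
noncomputable def lineMap (h : ℝ → ℝ) (w : ℝ × ℝ) : ℝ × ℝ := (w.2, nxt h w.1 w.2)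

theorem t0_lineMap_mem {h : ℝ → ℝ} (hs : IsSupport h) {w : ℝ × ℝ} (hw : w ∈ wedge) : lineMap h w ∈ wedge := by
  obtain ⟨n1, n2, -⟩ := t0_nxt_spec hs (a := w.1) (b := w.2) hw
  exact ⟨n1, n2⟩

theorem t0_lineMap_injOn {h : ℝ → ℝ} (hs : IsSupport h) : Set.InjOn (lineMap h) wedge := by
  intro w hw w' hw' e
  simp only [lineMap, Prod.mk.injEq] at e
  obtain ⟨e1, e2⟩ := e
  obtain ⟨n1, n2, n3⟩ := t0_nxt_spec hs (a := w.1) (b := w.2) hw
  obtain ⟨m1, m2, m3⟩ := t0_nxt_spec hs (a := w'.1) (b := w'.2) hw'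
  have h1 : pOut h w.1 w.2 = pOut h w'.1 w.2 := by
    rw [← n3, e2, e1, m3]
  have := t0_pOut_inj hs hw.1.le hw.2.le (by rw [e1]; exact hw'.1.le) (by rw [e1]; exact hw'.2.le) h1
  exact Prod.ext this e1

theorem t0_lineMap_surjOn {h : ℝ → ℝ} (hs : IsSupport h) : Set.SurjOn (lineMap h) wedge wedge := by
  intro w hw
  obtain ⟨a, ha, e⟩ := t0_exists_prev hs (b := w.1) (c := w.2) hw
  exact ⟨(a, w.1), ha, by simp [lineMap, e]⟩

theorem t0_lineMap_continuousOn {h : ℝ → ℝ} (hs : IsSupport h) : ContinuousOn (lineMap h) wedge :=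
  continuous_snd.continuousOn.prodMk (t0_nxt_continuousOn hs)

theorem t0_lineMap_shift {h : ℝ → ℝ} (hs : IsSupport h) {w : ℝ × ℝ} (hw : w ∈ wedge) :
    lineMap h (w + (2 * π, 2 * π)) = lineMap h w + (2 * π, 2 * π) := by
  simp only [lineMap, Prod.fst_add, Prod.snd_add, Prod.mk_add_mk]
  rw [t0_nxt_shift hs (a := w.1) (b := w.2) hw]

end Claimed.Agent.R269
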