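/-
Row 269, front ends: the chord between two boundary points on one oriented line.     helper113.
-/
import Claimed.Agent.R269.T0.Next
import Claimed.Agent.R269.T0.Conv

set_option autoImplicit false

namespace Claimed.Agent.R269

open Real

/-- two boundary points on the line `x · n_b = p`: the one with the later normal angle lies ahead in the direction `e_b`. -/
theorem t0_chord_fwd {h : ℝ → ℝ} (hs : IsSupport h) (ψ ψ' b : ℝ) (h1 : ψ < ψ') (h2 : ψ' < ψ + 2 * π) (h3 : ψ < b)
    (h4 : b < ψ + π) (e : dotR (bpt h ψ') (nvec b) = dotR (bpt h ψ) (nvec b)) :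
    ∃ t : ℝ, 0 < t ∧ bpt h ψ' = bpt h ψ + t • evec b := by
  have hπ := pi_pos
  set w := bpt h ψ' - bpt h ψ with hw
  have hw0 : dotR w (nvec b) = 0 := by rw [hw, t0_dot_sub, e, sub_self]
  have hw1 := t0_orth_nvec w b hw0
  refine ⟨dotR w (evec b), ?_, ?_⟩
  · have hne : ∀ n : ℤ, ψ ≠ ψ' + n * (2 * π) := by
      intro n hn
      have a1 : (n : ℝ) * (2 * π) < 0 := by linarith
      have a2 : -(2 * π) < (n : ℝ) * (2 * π) := by linarith
      have a3 : (n : ℝ) < 0 := by
        by_contra hc
        push Not at hc
        nlinarith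
      have a4 : (-1 : ℝ) < n := by
        by_contra hc
        push Not at hc
        nlinarith
      have a5 : n < 0 := by exact_mod_cast a3
      have a6 : -1 < n := by exact_mod_cast a4
      omega
    have h5 := t0_bpt_dot_lt hs ψ' ψ hne
    have h6 : dotR w (nvec ψ) < 0 := by
      rw [hw, t0_dot_sub, t0_bpt_dot_self]
      linarith
    rw [hw1, t0_dot_smul, t0_dot_en] at h6
    have h7 : sin (ψ - b) < 0 := sin_neg_of_neg_of_neg_pi_lt (by linarith) (by linarith)
    by_contra hc
    push Not at hc
    nlinarith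
  · rw [← hw1, hw]
    abel

end Claimed.Agent.R269
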