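/-
Row 269, front ends, HOST-FREE LEAF  LF-T0a-Angle :  smooth tangent angle of a regular plane curve.        Sub-captain: helper113.

PLAN.  `w t = deriv γ t = (x, y)`, `N t = x² + y² > 0`, `κ t = (x y' - y x') / N` (smooth).   Choose `φ₀` with `w 0 = √(N 0) (cos φ₀, sin φ₀)`
(`Complex.arg`), `φ t := φ₀ + ∫ s in 0..t, κ s`.   `HasDerivAt φ (κ t) t` (`intervalIntegral.integral_hasDerivAt_right` / `Continuous.deriv_integral`);
`ContDiff ℝ ∞ φ` by `contDiff_infty_iff_deriv`.   Put `C = (x cos φ + y sin φ) / √N`, `S = (y cos φ - x sin φ) / √N`.   Then `C' = 0`, `S' = 0`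
(write `(x', y') = λ (x, y) + κ (-y, x)` with `λ = (x x' + y y') / N`, `(√N)' = λ √N`), `C 0 = 1`, `S 0 = 0` (`is_const_of_deriv_eq_zero`).
Hence `x cos φ + y sin φ = √N`, `y cos φ - x sin φ = 0`, i.e. `(x, y) = √N (cos φ, sin φ)`.
-/
import Mathlib

set_option autoImplicit false

namespace Claimed.Agent.R269

open Real

theorem t0a_angle (γ : ℝ → ℝ × ℝ) (hsm : ContDiff ℝ ((⊤ : ℕ∞) : WithTop ℕ∞) γ) (hreg : ∀ t, deriv γ t ≠ 0) :
    ∃ φ : ℝ → ℝ, ContDiff ℝ ((⊤ : ℕ∞) : WithTop ℕ∞) φ ∧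
      (∀ t, ∃ c : ℝ, 0 < c ∧ deriv γ t = (c * cos (φ t), c * sin (φ t))) ∧
      (∀ t, deriv φ t = ((deriv γ t).1 * (deriv (deriv γ) t).2 - (deriv γ t).2 * (deriv (deriv γ) t).1)
        / ((deriv γ t).1 ^ 2 + (deriv γ t).2 ^ 2)) := by
  have hw : ContDiff ℝ ((⊤ : ℕ∞) : WithTop ℕ∞) (deriv γ) := (contDiff_infty_iff_deriv.1 hsm).2
  have hw' : ContDiff ℝ ((⊤ : ℕ∞) : WithTop ℕ∞) (deriv (deriv γ)) := (contDiff_infty_iff_deriv.1 hw).2
  have hwd : ∀ t, HasDerivAt (deriv γ) (deriv (deriv γ) t) t := fun t =>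
    ((contDiff_infty_iff_deriv.1 hw).1 t).hasDerivAt
  set x : ℝ → ℝ := fun t => (deriv γ t).1 with hx
  set y : ℝ → ℝ := fun t => (deriv γ t).2 with hy
  set x' : ℝ → ℝ := fun t => (deriv (deriv γ) t).1 with hx'
  set y' : ℝ → ℝ := fun t => (deriv (deriv γ) t).2 with hy'
  have hxd : ∀ t, HasDerivAt x (x' t) t := fun t =>
    (ContinuousLinearMap.fst ℝ ℝ ℝ).hasFDerivAt.comp_hasDerivAt t (hwd t)
  have hyd : ∀ t, HasDerivAt y (y' t) t := fun t =>
    (ContinuousLinearMap.snd ℝ ℝ ℝ).hasFDerivAt.comp_hasDerivAt t (hwd t)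
  have hxs : ContDiff ℝ ((⊤ : ℕ∞) : WithTop ℕ∞) x := hw.fst
  have hys : ContDiff ℝ ((⊤ : ℕ∞) : WithTop ℕ∞) y := hw.snd
  have hxs' : ContDiff ℝ ((⊤ : ℕ∞) : WithTop ℕ∞) x' := hw'.fst
  have hys' : ContDiff ℝ ((⊤ : ℕ∞) : WithTop ℕ∞) y' := hw'.snd
  have hN : ∀ t, 0 < x t ^ 2 + y t ^ 2 := by
    intro t
    have : x t ≠ 0 ∨ y t ≠ 0 := by
      by_contra hcon
      push Not at hcon
      exact hreg t (Prod.ext hcon.1 hcon.2)
    rcases this with h | h
    · have := pow_pos (abs_pos.2 h) 2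
      rw [sq_abs] at this
      nlinarith [sq_nonneg (y t)]
    · have := pow_pos (abs_pos.2 h) 2
      rw [sq_abs] at this
      nlinarith [sq_nonneg (x t)]
  set κ : ℝ → ℝ := fun t => (x t * y' t - y t * x' t) / (x t ^ 2 + y t ^ 2) with hκ
  have hκs : ContDiff ℝ ((⊤ : ℕ∞) : WithTop ℕ∞) κ := by
    apply ContDiff.div
    · exact (hxs.mul hys').sub (hys.mul hxs')
    · exact (hxs.pow 2).add (hys.pow 2)
    · exact fun t => (hN t).ne'
  have hκc : Continuous κ := hκs.continuous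
  -- initial angle
  obtain ⟨φ₀, r₀, hr₀, e1, e2⟩ : ∃ φ₀ r₀ : ℝ, 0 < r₀ ∧ x 0 = r₀ * cos φ₀ ∧ y 0 = r₀ * sin φ₀ := by
    set z : ℂ := ⟨x 0, y 0⟩ with hz
    have hz0 : z ≠ 0 := by
      intro h0
      have h1 := congrArg Complex.re h0
      have h2 := congrArg Complex.im h0
      exact hreg 0 (Prod.ext h1 h2)
    exact ⟨Complex.arg z, ‖z‖, norm_pos_iff.2 hz0, (Complex.norm_mul_cos_arg z).symm,
      (Complex.norm_mul_sin_arg z).symm⟩
  set φ : ℝ → ℝ := fun t => φ₀ + ∫ s in (0 : ℝ)..t, κ s with hφ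
  have hφd : ∀ t, HasDerivAt φ (κ t) t := by
    intro t
    have := intervalIntegral.integral_hasDerivAt_right (hκc.intervalIntegrable 0 t)
      (hκc.stronglyMeasurableAtFilter _ _) hκc.continuousAt
    exact this.const_add φ₀
  have hφderiv : deriv φ = κ := funext fun t => (hφd t).deriv
  have hφs : ContDiff ℝ ((⊤ : ℕ∞) : WithTop ℕ∞) φ := by
    rw [contDiff_infty_iff_deriv]
    exact ⟨fun t => (hφd t).differentiableAt, hφderiv ▸ hκs⟩
  have hφ0 : φ 0 = φ₀ := by simp [hφ]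
  set C : ℝ → ℝ := fun t => x t * cos (φ t) + y t * sin (φ t) with hC
  set S : ℝ → ℝ := fun t => y t * cos (φ t) - x t * sin (φ t) with hS
  have hSd : ∀ t, HasDerivAt S (y' t * cos (φ t) + y t * (-sin (φ t) * κ t)
      - (x' t * sin (φ t) + x t * (cos (φ t) * κ t))) t := by
    intro t
    exact ((hyd t).mul (hφd t).cos).sub ((hxd t).mul (hφd t).sin)
  have hCS : ∀ t, C t ^ 2 + S t ^ 2 = x t ^ 2 + y t ^ 2 := by
    intro t
    simp only [hC, hS]
    have := sin_sq_add_cos_sq (φ t)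
    linear_combination (x t ^ 2 + y t ^ 2) * this
  -- `S² / N` is constant
  have hQ : ∀ t, HasDerivAt (fun t => S t ^ 2 / (x t ^ 2 + y t ^ 2)) 0 t := by
    intro t
    have h1 := ((hSd t).pow 2).div (((hxd t).pow 2).add ((hyd t).pow 2)) (hN t).ne'
    have h2 : HasDerivAt (fun t => S t ^ 2 / (x t ^ 2 + y t ^ 2)) _ t := h1
    refine h2.congr_deriv ?_
    have hk : κ t * (x t ^ 2 + y t ^ 2) = x t * y' t - y t * x' t := by
      simp only [hκ]
      field_simp [(hN t).ne']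
    rw [div_eq_zero_iff]
    left
    simp only [Pi.pow_apply, Pi.add_apply, hS]
    push_cast
    linear_combination (2 * (y t * cos (φ t) - x t * sin (φ t)) * (-(y t * sin (φ t) + x t * cos (φ t)))) * hk
  have hS0 : S 0 = 0 := by
    simp only [hS, hφ0, e1, e2]
    ring
  have hSz : ∀ t, S t = 0 := by
    intro t
    have h1 : (fun t => S t ^ 2 / (x t ^ 2 + y t ^ 2)) t = (fun t => S t ^ 2 / (x t ^ 2 + y t ^ 2)) 0 :=
      is_const_of_deriv_eq_zero (fun t => (hQ t).differentiableAt) (fun t => (hQ t).deriv) t 0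
    simp only [hS0] at h1
    rw [zero_pow two_ne_zero, zero_div, div_eq_zero_iff] at h1
    rcases h1 with h1 | h1
    · exact pow_eq_zero_iff two_ne_zero |>.1 h1
    · exact absurd h1 (hN t).ne'
  have hCc : Continuous C := by
    have h1 : Continuous x := hxs.continuous
    have h2 : Continuous y := hys.continuous
    have h3 : Continuous φ := hφs.continuous
    simp only [hC]
    fun_prop
  have hCne : ∀ t, C t ≠ 0 := by
    intro t h0
    have := hCS t
    rw [h0, hSz t] at this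
    have h2 := hN t
    norm_num at this
    linarith
  have hC0 : 0 < C 0 := by
    simp only [hC, hφ0, e1, e2]
    have := sin_sq_add_cos_sq φ₀
    have e : r₀ * cos φ₀ * cos φ₀ + r₀ * sin φ₀ * sin φ₀ = r₀ := by linear_combination r₀ * this
    rw [e]
    exact hr₀
  have hCpos : ∀ t, 0 < C t := by
    intro t
    by_contra hcon
    push Not at hcon
    have : (0 : ℝ) ∈ Set.range C := mem_range_of_exists_le_of_exists_ge hCc ⟨t, hcon⟩ ⟨0, hC0.le⟩
    obtain ⟨s, hs⟩ := this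
    exact hCne s hs
  refine ⟨φ, hφs, fun t => ⟨C t, hCpos t, ?_⟩, fun t => ?_⟩
  · have h1 := hSz t
    have h2 := sin_sq_add_cos_sq (φ t)
    simp only [hS] at h1
    ext
    · show x t = C t * cos (φ t)
      simp only [hC]
      linear_combination (-x t) * h2 + (-sin (φ t)) * h1
    · show y t = C t * sin (φ t)
      simp only [hC]
      linear_combination (-y t) * h2 + (cos (φ t)) * h1
  · rw [hφderiv]

end Claimed.Agent.R269
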