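/-
Row 269, front ends, LEAF  LF-T0a-Gauss :  the Gauss map of the boundary.        Sub-captain: helper113.
Uses T0/Conv.lean, T0/Angle.lean (statements), T0/Model.lean.     Source: P1 02-analytic.tex l.22-45, P2 geometry.tex l.13-30 ("strict convexity
makes the normal map bijective"); the papers give no details, the proof below is complete.

NOTATION.  `K = closure Ω`.  `ν t` = angle of the candidate outward normal at `γ t`;  `T0aMax Ω γ ν t` : `γ t` maximises `x · n_(ν t)` on `K`.
PLAN.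
(1) `t0a_normal`: the curvature determinant is continuous and never `0`, so `σ ∈ {1, -1}` with `0 < σ det` (IVT).  `φ` from `t0a_angle`,
    `ν := φ - σ π/2`:  `(cos φ, sin φ) = σ e_ν`.   `deriv ν = det / |γ'|²`.
(2) `t0a_second`: differentiate... no: directly, `γ' = σ c e_ν`, so `det (γ', γ'') = σ c det (e_ν, γ'') = - σ c (γ'' · n_ν)`.
(3) `t0a_max_of_not_interior`: `t0_tangent_support` gives `n ≠ 0`, `γ' t · n = 0`, so `n = λ n_(ν t)` (`t0_orth`-type lemma: `n ⊥ e_ν`), `λ ≠ 0`.
    If `λ < 0` then `s ↦ γ s · n_(ν t)` has a minimum at `t`, first derivative `0`, second derivative `γ'' t · n_(ν t) < 0`: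
    `isLocalMax_of_deriv_deriv_neg` makes it a local max too, so the function is locally constant and its second derivative is `0`: contradiction.
(4) `t0a_max_param`: `t0_exists_max` on `K` for `n_θ`; the maximiser is not interior (`t0_max_not_interior`), so it lies in
    `frontier K ⊆ frontier Ω = range γ` (`frontier_closure_subset`): `= γ t`; (3) gives `T0aMax t`; `t0_deriv_dot_eq_zero` gives `γ' t · n_θ = 0`, i.e.
    `sin (θ - ν t) = 0`, `θ - ν t = k π` (`Real.sin_eq_zero_iff`).  `k` odd is impossible: `n_θ = - n_(ν t)`, so `x · n_θ` is constant on `K`, but `Ω` is a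
    nonempty `IsOpen` subset of `K`.
(5) `t0a_nvec_per`: `γ' (t + L) = γ' t`, so `e_(ν (t+L)) = e_(ν t)` (unit vectors, positive factors), hence also `n`.
(6) `t0a_max_all`: `S = {t | T0aMax t}` is closed (continuity), nonempty (4), and a neighbourhood of each of its points:  let `t₀ ∈ S`, `tₙ → t₀`.  By (4) for
    `θ = ν tₙ` and (5), periodicity: `sₙ ∈ S ∩ [t₀ - L/2, t₀ + L/2]`, `ν sₙ - ν tₙ ∈ 2π ℤ`.  A limit point `s` of `sₙ`: `γ s` maximises `n_(ν t₀)`, so `γ s = γ t₀`
    (`t0_unique_max`), `s - t₀ ∈ L ℤ` (`inj`, `per`), `s = t₀`.  So `ν sₙ - ν tₙ → 0` along the subsequence, hence `= 0`, `sₙ = tₙ` (`ν` injective), `tₙ ∈ S`.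
    (`IsClopen`, `ℝ` connected.)
(7) `t0a_shift`: `ν (t + L) - ν t ∈ 2π ℤ` by (5), continuous, so constant `= 2π k` (`t0p_const_of_int`-type argument; reprove locally);  `σ k ≥ 1` since `σ ν`
    is strictly increasing;  IVT: `t' ∈ (t, t + L]` with `ν t' = ν t + σ 2π`;  `γ t' = γ t` by (6) + `t0_unique_max`; so `t' = t + L`.
-/
import Claimed.Agent.R269.T0.Conv
import Claimed.Agent.R269.T0.Angle
import Claimed.Agent.R269.T0.Model

set_option autoImplicit false

namespace Claimed.Agent.R269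

open Real

/-- the hypotheses on the table common to S0510 and S0511. -/
structure IsTable (Ω : Set (ℝ × ℝ)) (γ : ℝ → ℝ × ℝ) (L : ℝ) : Prop where
  isOpen : IsOpen Ω
  bdd : Bornology.IsBounded Ω
  sconv : StrictConvex ℝ (closure Ω)
  Lpos : 0 < L
  smooth : ContDiff ℝ ((⊤ : ℕ∞) : WithTop ℕ∞) γ
  per : Function.Periodic γ L
  inj : Set.InjOn γ (Set.Ico 0 L)
  reg : ∀ t, deriv γ t ≠ 0
  bd : frontier Ω = Set.range γ
  curv : ∀ t, (deriv γ t).1 * (deriv (deriv γ) t).2 - (deriv γ t).2 * (deriv (deriv γ) t).1 ≠ 0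

/-- a smooth choice of the normal angle, adapted to the sign of the curvature. -/
structure IsNormal (γ : ℝ → ℝ × ℝ) (ν : ℝ → ℝ) (σ : ℝ) : Prop where
  sign : σ = 1 ∨ σ = -1
  smooth : ContDiff ℝ ((⊤ : ℕ∞) : WithTop ℕ∞) ν
  dpos : ∀ t, 0 < σ * deriv ν t
  tangent : ∀ t, ∃ c : ℝ, 0 < c ∧ deriv γ t = (σ * c) • evec (ν t)
  curv : ∀ t, 0 < σ * ((deriv γ t).1 * (deriv (deriv γ) t).2 - (deriv γ t).2 * (deriv (deriv γ) t).1)

/-- `γ t` maximises `x · n_(ν t)` on the closed table. -/
def T0aMax (Ω : Set (ℝ × ℝ)) (γ : ℝ → ℝ × ℝ) (ν : ℝ → ℝ) (t : ℝ) : Prop :=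
  ∀ x ∈ closure Ω, dotR x (nvec (ν t)) ≤ dotR (γ t) (nvec (ν t))

variable {Ω : Set (ℝ × ℝ)} {γ : ℝ → ℝ × ℝ} {L : ℝ} {ν : ℝ → ℝ} {σ : ℝ}

theorem IsTable.nonempty (T : IsTable Ω γ L) : Ω.Nonempty := by
  by_contra h
  rw [Set.not_nonempty_iff_eq_empty] at h
  have h1 := T.bd
  rw [h, frontier_empty] at h1
  exact (Set.range_nonempty γ).ne_empty h1.symm

theorem IsTable.mem_frontier (T : IsTable Ω γ L) (t : ℝ) : γ t ∈ frontier Ω := by
  rw [T.bd]
  exact Set.mem_range_self t

theorem IsTable.mem_closure (T : IsTable Ω γ L) (t : ℝ) : γ t ∈ closure Ω :=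
  frontier_subset_closure (T.mem_frontier t)

theorem IsTable.add_int (T : IsTable Ω γ L) (t : ℝ) (k : ℤ) : γ (t + k * L) = γ t := by
  have := T.per.int_mul k t
  exact this

/-- `γ s = γ t` only if `s - t ∈ L ℤ`. -/
theorem IsTable.eq_iff (T : IsTable Ω γ L) (s t : ℝ) (h : γ s = γ t) : ∃ k : ℤ, s = t + k * L := by
  have hL := T.Lpos
  have h1 : ∀ u : ℝ, γ (toIcoMod hL 0 u) = γ u := by
    intro u
    have e := toIcoMod_add_toIcoDiv_zsmul hL 0 u
    rw [zsmul_eq_mul] at e
    conv_rhs => rw [← e]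
    rw [T.add_int]
  have h2 : toIcoMod hL 0 s = toIcoMod hL 0 t := by
    apply T.inj
    · simpa using toIcoMod_mem_Ico hL 0 s
    · simpa using toIcoMod_mem_Ico hL 0 t
    · rw [h1, h1, h]
  have e1 := toIcoMod_add_toIcoDiv_zsmul hL 0 s
  have e2 := toIcoMod_add_toIcoDiv_zsmul hL 0 t
  rw [zsmul_eq_mul] at e1 e2
  refine ⟨toIcoDiv hL 0 s - toIcoDiv hL 0 t, ?_⟩
  push_cast
  linarith

theorem IsTable.compact (T : IsTable Ω γ L) : IsCompact (closure Ω) :=
  Metric.isCompact_of_isClosed_isBounded isClosed_closure T.bdd.closure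

theorem IsTable.subset_interior (T : IsTable Ω γ L) : Ω ⊆ interior (closure Ω) :=
  interior_maximal subset_closure T.isOpen

theorem IsTable.deriv_per (T : IsTable Ω γ L) (t : ℝ) : deriv γ (t + L) = deriv γ t := by
  have h1 : (fun s => γ (s + L)) = γ := funext T.per
  have h2 : deriv (fun s => γ (s + L)) t = deriv γ (t + L) := deriv_comp_add_const γ L t
  rw [← h2, h1]

theorem IsTable.hasDerivAt (T : IsTable Ω γ L) (t : ℝ) : HasDerivAt γ (deriv γ t) t :=
  ((contDiff_infty_iff_deriv.1 T.smooth).1 t).hasDerivAt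

theorem IsTable.hasDerivAt2 (T : IsTable Ω γ L) (t : ℝ) : HasDerivAt (deriv γ) (deriv (deriv γ) t) t :=
  ((contDiff_infty_iff_deriv.1 (contDiff_infty_iff_deriv.1 T.smooth).2).1 t).hasDerivAt

theorem t0a_normal (T : IsTable Ω γ L) : ∃ (ν : ℝ → ℝ) (σ : ℝ), IsNormal γ ν σ := by
  obtain ⟨φ, hφ, h1, h2⟩ := t0a_angle γ T.smooth T.reg
  set D : ℝ → ℝ := fun t => (deriv γ t).1 * (deriv (deriv γ) t).2 - (deriv γ t).2 * (deriv (deriv γ) t).1 with hD
  have hw : ContDiff ℝ ((⊤ : ℕ∞) : WithTop ℕ∞) (deriv γ) := (contDiff_infty_iff_deriv.1 T.smooth).2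
  have hw' : ContDiff ℝ ((⊤ : ℕ∞) : WithTop ℕ∞) (deriv (deriv γ)) := (contDiff_infty_iff_deriv.1 hw).2
  have hDc : Continuous D := by
    have a1 := hw.continuous
    have a2 := hw'.continuous
    simp only [hD]
    fun_prop
  have hN : ∀ t, 0 < (deriv γ t).1 ^ 2 + (deriv γ t).2 ^ 2 := by
    intro t
    have := t0_dot_self_pos _ (T.reg t)
    simp only [dotR] at this
    nlinarith
  obtain ⟨σ, hσ, hpos⟩ : ∃ σ : ℝ, (σ = 1 ∨ σ = -1) ∧ ∀ t, 0 < σ * D t := by
    rcases lt_or_gt_of_ne (T.curv 0) with h0 | h0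
    · refine ⟨-1, Or.inr rfl, fun t => ?_⟩
      by_contra hcon
      push Not at hcon
      have : (0 : ℝ) ∈ Set.range D :=
        mem_range_of_exists_le_of_exists_ge hDc ⟨0, h0.le⟩ ⟨t, by linarith⟩
      obtain ⟨s, hs⟩ := this
      exact T.curv s hs
    · refine ⟨1, Or.inl rfl, fun t => ?_⟩
      by_contra hcon
      push Not at hcon
      have : (0 : ℝ) ∈ Set.range D :=
        mem_range_of_exists_le_of_exists_ge hDc ⟨t, by linarith⟩ ⟨0, h0.le⟩
      obtain ⟨s, hs⟩ := this
      exact T.curv s hs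
  refine ⟨fun t => φ t - σ * (π / 2), σ, hσ, hφ.sub contDiff_const, fun t => ?_, fun t => ?_, hpos⟩
  · have e : deriv (fun t => φ t - σ * (π / 2)) t = deriv φ t := deriv_sub_const _
    rw [e, h2 t, ← mul_div_assoc]
    exact div_pos (hpos t) (hN t)
  · obtain ⟨c, hc, e⟩ := h1 t
    refine ⟨c, hc, ?_⟩
    rw [e]
    rcases hσ with rfl | rfl
    · ext
      · simp [evec, sin_sub_pi_div_two]
      · simp [evec, cos_sub_pi_div_two]
    · have e1 : φ t - -1 * (π / 2) = φ t + π / 2 := by ring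
      rw [e1]
      ext
      · simp [evec, sin_add_pi_div_two]
      · simp [evec, cos_add_pi_div_two]

theorem IsNormal.hasDerivAt (N : IsNormal γ ν σ) (t : ℝ) : HasDerivAt ν (deriv ν t) t :=
  ((contDiff_infty_iff_deriv.1 N.smooth).1 t).hasDerivAt

theorem IsNormal.continuous (N : IsNormal γ ν σ) : Continuous ν := N.smooth.continuous

theorem IsNormal.strictMono (N : IsNormal γ ν σ) : StrictMono fun t => σ * ν t := by
  apply strictMono_of_deriv_pos
  intro t
  rw [((N.hasDerivAt t).const_mul σ).deriv]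
  exact N.dpos t

theorem IsNormal.sigma_ne (N : IsNormal γ ν σ) : σ ≠ 0 := by
  rcases N.sign with h | h <;> rw [h] <;> norm_num

theorem IsNormal.sigma_sq (N : IsNormal γ ν σ) : σ * σ = 1 := by
  rcases N.sign with h | h <;> rw [h] <;> norm_num

theorem IsNormal.injective (N : IsNormal γ ν σ) : Function.Injective ν := by
  intro a b h
  apply N.strictMono.injective
  show σ * ν a = σ * ν b
  rw [h]

theorem t0a_second (N : IsNormal γ ν σ) (t : ℝ) : dotR (deriv (deriv γ) t) (nvec (ν t)) < 0 := by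
  obtain ⟨c, hc, e⟩ := N.tangent t
  have h1 := N.curv t
  rw [e] at h1
  simp only [evec, Prod.smul_fst, Prod.smul_snd, smul_eq_mul] at h1
  have h2 : σ * (σ * c * -sin (ν t) * (deriv (deriv γ) t).2 - σ * c * cos (ν t) * (deriv (deriv γ) t).1)
      = (σ * σ) * (-c * dotR (deriv (deriv γ) t) (nvec (ν t))) := by
    simp only [dotR, nvec]
    ring
  rw [h2, N.sigma_sq, one_mul] at h1
  nlinarith

theorem IsNormal.evec_dot_zero (N : IsNormal γ ν σ) (t : ℝ) (n : ℝ × ℝ) (h : dotR (deriv γ t) n = 0) :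
    dotR (evec (ν t)) n = 0 := by
  obtain ⟨c, hc, e⟩ := N.tangent t
  rw [e, t0_dot_smul] at h
  rcases mul_eq_zero.1 h with h | h
  · exact absurd h (mul_ne_zero N.sigma_ne hc.ne')
  · exact h

theorem t0a_max_of_not_interior (T : IsTable Ω γ L) (N : IsNormal γ ν σ) (t : ℝ)
    (ht : γ t ∉ interior (closure Ω)) : T0aMax Ω γ ν t := by
  have hi : (interior (closure Ω)).Nonempty := T.nonempty.mono T.subset_interior
  obtain ⟨n, hn, hmax, hd⟩ := t0_tangent_support (closure Ω) T.sconv.convex hi γ T.mem_closure t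
    (T.hasDerivAt t).differentiableAt ht
  have h1 := N.evec_dot_zero t n hd
  have h2 := t0_expand n (ν t)
  rw [t0_dot_comm n (evec (ν t)), h1, zero_smul, add_zero] at h2
  set lam := dotR n (nvec (ν t)) with hlam
  have hlam0 : lam ≠ 0 := by
    intro h0
    rw [h0, zero_smul] at h2
    exact hn h2
  have h3 : ∀ x : ℝ × ℝ, dotR x n = lam * dotR x (nvec (ν t)) := by
    intro x
    conv_lhs => rw [h2]
    rw [t0_dot_comm, t0_dot_smul, t0_dot_comm]
  rcases lt_or_gt_of_ne hlam0 with hneg | hpos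
  · exfalso
    -- `f s = γ s · n_(ν t)` has a global minimum at `t`
    set f : ℝ → ℝ := fun s => dotR (γ s) (nvec (ν t)) with hf
    have hmin : ∀ s, f t ≤ f s := by
      intro s
      have := hmax (γ s) (T.mem_closure s)
      rw [h3, h3] at this
      simp only [hf]
      nlinarith
    have hf1 : ∀ s, HasDerivAt f (dotR (deriv γ s) (nvec (ν t))) s := fun s =>
      t0_hasDerivAt_dot (T.hasDerivAt s) _
    have hf1' : deriv f = fun s => dotR (deriv γ s) (nvec (ν t)) := funext fun s => (hf1 s).deriv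
    have hf2 : HasDerivAt (deriv f) (dotR (deriv (deriv γ) t) (nvec (ν t))) t := by
      rw [hf1']
      exact t0_hasDerivAt_dot (T.hasDerivAt2 t) _
    have hneg2 : deriv (deriv f) t < 0 := by
      rw [hf2.deriv]
      exact t0a_second N t
    have hd0 : deriv f t = 0 := by
      have : IsLocalMin f t := Filter.Eventually.of_forall hmin
      exact this.deriv_eq_zero
    have hlmax : IsLocalMax f t := isLocalMax_of_deriv_deriv_neg hneg2 hd0 (hf1 t).continuousAt
    have hconst : f =ᶠ[nhds t] fun _ => f t := by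
      filter_upwards [hlmax] with s hs
      exact le_antisymm hs (hmin s)
    have hc1 : deriv f =ᶠ[nhds t] deriv (fun _ => f t) := hconst.deriv
    have hc2 : deriv (deriv f) t = deriv (deriv (fun _ : ℝ => f t)) t := hc1.deriv_eq
    rw [hc2] at hneg2
    simp at hneg2
  · intro x hx
    have := hmax x hx
    rw [h3, h3] at this
    exact le_of_mul_le_mul_left this hpos

theorem t0a_max_param (T : IsTable Ω γ L) (N : IsNormal γ ν σ) (θ : ℝ) :
    ∃ t, T0aMax Ω γ ν t ∧ ∃ k : ℤ, ν t = θ + k * (2 * π) := by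
  obtain ⟨x, hx, hmax⟩ := t0_exists_max (closure Ω) T.compact (T.nonempty.mono subset_closure) (nvec θ)
  have hxi : x ∉ interior (closure Ω) := t0_max_not_interior _ _ _ (t0_nvec_ne_zero θ) hmax
  have hxf : x ∈ frontier Ω := ⟨hx, fun h => hxi (interior_mono subset_closure h)⟩
  rw [T.bd] at hxf
  obtain ⟨t, rfl⟩ := hxf
  have hM := t0a_max_of_not_interior T N t hxi
  refine ⟨t, hM, ?_⟩
  have h1 : dotR (deriv γ t) (nvec θ) = 0 :=
    t0_deriv_dot_eq_zero γ _ t (T.hasDerivAt t).differentiableAt fun s => hmax _ (T.mem_closure s)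
  have h2 := N.evec_dot_zero t _ h1
  rw [t0_dot_en] at h2
  obtain ⟨m, hm⟩ := Real.sin_eq_zero_iff.1 h2
  rcases Int.even_or_odd' m with ⟨k, hk | hk⟩
  · refine ⟨-k, ?_⟩
    rw [hk] at hm
    push_cast at hm ⊢
    linarith
  · exfalso
    have e : nvec θ = -nvec (ν t) := by
      have e1 : θ = ν t + π + k * (2 * π) := by
        rw [hk] at hm
        push_cast at hm
        linarith
      rw [e1, t0_nvec_add_int]
      simp [nvec, cos_add_pi, sin_add_pi]
    obtain ⟨a, ha⟩ := T.nonempty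
    refine t0_max_not_interior (closure Ω) (nvec (ν t)) a (t0_nvec_ne_zero _) (fun y hy => ?_) (T.subset_interior ha)
    have h3 := hM y hy
    have h4 := hmax a (subset_closure ha)
    rw [e] at h4
    have h5 : ∀ w : ℝ × ℝ, dotR w (-nvec (ν t)) = -dotR w (nvec (ν t)) := by
      intro w
      simp only [dotR, Prod.fst_neg, Prod.snd_neg]
      ring
    rw [h5, h5] at h4
    linarith

theorem t0a_nvec_per (T : IsTable Ω γ L) (N : IsNormal γ ν σ) (t : ℝ) :
    ∃ k : ℤ, ν (t + L) = ν t + k * (2 * π) := by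
  obtain ⟨c, hc, e⟩ := N.tangent t
  obtain ⟨c', hc', e'⟩ := N.tangent (t + L)
  rw [T.deriv_per, e] at e'
  have h1 : dotR ((σ * c) • evec (ν t)) ((σ * c) • evec (ν t))
      = dotR ((σ * c') • evec (ν (t + L))) ((σ * c') • evec (ν (t + L))) := by rw [e']
  have h2 : ∀ (a ψ : ℝ), dotR (a • evec ψ) (a • evec ψ) = a * a := by
    intro a ψ
    rw [t0_dot_smul, t0_dot_comm, t0_dot_smul, t0_dot_ee]
    simp
  rw [h2, h2] at h1
  have h3 : c * c = c' * c' := by
    have := N.sigma_sq
    have e1 : σ * c * (σ * c) = (σ * σ) * (c * c) := by ring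
    have e2 : σ * c' * (σ * c') = (σ * σ) * (c' * c') := by ring
    rw [e1, e2, this, one_mul, one_mul] at h1
    exact h1
  have h4 : c = c' := by nlinarith
  rw [← h4] at e'
  have h5 : evec (ν t) = evec (ν (t + L)) := smul_right_injective _ (mul_ne_zero N.sigma_ne hc.ne') e'
  exact t0_evec_inj h5.symm

theorem t0a_nvec_per_int (T : IsTable Ω γ L) (N : IsNormal γ ν σ) (t : ℝ) (m : ℤ) :
    ∃ k : ℤ, ν (t + m * L) = ν t + k * (2 * π) := by
  induction m using Int.induction_on with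
  | zero => exact ⟨0, by simp⟩
  | succ i ih =>
    obtain ⟨k, hk⟩ := ih
    obtain ⟨k', hk'⟩ := t0a_nvec_per T N (t + (i : ℤ) * L)
    refine ⟨k + k', ?_⟩
    have e : t + ((i : ℤ) + 1 : ℤ) * L = t + (i : ℤ) * L + L := by push_cast; ring
    rw [e, hk', hk]
    push_cast
    ring
  | pred i ih =>
    obtain ⟨k, hk⟩ := ih
    obtain ⟨k', hk'⟩ := t0a_nvec_per T N (t + (-(i : ℤ) - 1 : ℤ) * L)
    refine ⟨k - k', ?_⟩
    have e : t + (-(i : ℤ) - 1 : ℤ) * L + L = t + (-(i : ℤ) : ℤ) * L := by push_cast; ring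
    rw [e, hk] at hk'
    push_cast at hk' ⊢
    linarith

theorem t0a_max_add_int (T : IsTable Ω γ L) (N : IsNormal γ ν σ) (t : ℝ) (m : ℤ) (h : T0aMax Ω γ ν t) :
    T0aMax Ω γ ν (t + m * L) := by
  obtain ⟨k, hk⟩ := t0a_nvec_per_int T N t m
  intro x hx
  rw [hk, t0_nvec_add_int, T.add_int]
  exact h x hx

theorem t0_continuous_nvec : Continuous nvec := by
  unfold nvec
  fun_prop

theorem t0a_max_closed (T : IsTable Ω γ L) (N : IsNormal γ ν σ) : IsClosed {t | T0aMax Ω γ ν t} := by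
  have h1 : {t | T0aMax Ω γ ν t} = ⋂ x ∈ closure Ω, {t | dotR x (nvec (ν t)) ≤ dotR (γ t) (nvec (ν t))} := by
    ext t
    simp [T0aMax]
  rw [h1]
  refine isClosed_biInter fun x _ => ?_
  have c1 : Continuous ν := N.continuous
  have c2 : Continuous γ := T.smooth.continuous
  apply isClosed_le
  · simp only [dotR, nvec]
    fun_prop
  · simp only [dotR, nvec]
    fun_prop

theorem t0a_max_all (T : IsTable Ω γ L) (N : IsNormal γ ν σ) (t : ℝ) : T0aMax Ω γ ν t := by
  have hL := T.Lpos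
  set S : Set ℝ := {t | T0aMax Ω γ ν t} with hS
  have hclosed : IsClosed S := t0a_max_closed T N
  have hne : S.Nonempty := by
    obtain ⟨t, ht, -⟩ := t0a_max_param T N 0
    exact ⟨t, ht⟩
  have hopen : IsOpen S := by
    rw [isOpen_iff_mem_nhds]
    intro t₀ ht₀
    by_contra hcon
    have hfreq : ∃ᶠ t in nhds t₀, t ∉ S := Filter.not_eventually.1 hcon
    obtain ⟨tn, htn, hnS⟩ := Filter.exists_seq_forall_of_frequently hfreq
    have hex : ∀ n, ∃ s, s ∈ Set.Icc (t₀ - L / 2) (t₀ + L / 2) ∧ s ∈ S ∧ ∃ k : ℤ, ν s = ν (tn n) + k * (2 * π) := by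
      intro n
      obtain ⟨s', hs', k, hk⟩ := t0a_max_param T N (ν (tn n))
      have e := toIcoMod_add_toIcoDiv_zsmul hL (t₀ - L / 2) s'
      rw [zsmul_eq_mul] at e
      have e2 : toIcoMod hL (t₀ - L / 2) s' = s' + ((-toIcoDiv hL (t₀ - L / 2) s' : ℤ) : ℝ) * L := by
        push_cast
        linarith
      have hmem := toIcoMod_mem_Ico hL (t₀ - L / 2) s'
      refine ⟨toIcoMod hL (t₀ - L / 2) s', ⟨hmem.1, by linarith [hmem.2]⟩, ?_, ?_⟩
      · rw [e2]
        exact t0a_max_add_int T N s' _ hs'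
      · rw [e2]
        obtain ⟨k', hk'⟩ := t0a_nvec_per_int T N s' (-toIcoDiv hL (t₀ - L / 2) s')
        refine ⟨k + k', ?_⟩
        rw [hk', hk]
        push_cast
        ring
    choose sn hsn1 hsn2 kn hkn using hex
    obtain ⟨s, hs, φ, hφ, hlim⟩ := isCompact_Icc.tendsto_subseq hsn1
    have hsS : s ∈ S := hclosed.mem_of_tendsto hlim (Filter.Eventually.of_forall fun n => hsn2 _)
    have htφ : Filter.Tendsto (tn ∘ φ) Filter.atTop (nhds t₀) := htn.comp hφ.tendsto_atTop
    have hn1 : Filter.Tendsto (fun n => nvec (ν ((sn ∘ φ) n))) Filter.atTop (nhds (nvec (ν s))) :=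
      ((t0_continuous_nvec.comp N.continuous).tendsto s).comp hlim
    have hn2 : Filter.Tendsto (fun n => nvec (ν ((tn ∘ φ) n))) Filter.atTop (nhds (nvec (ν t₀))) :=
      ((t0_continuous_nvec.comp N.continuous).tendsto t₀).comp htφ
    have hn3 : (fun n => nvec (ν ((sn ∘ φ) n))) = fun n => nvec (ν ((tn ∘ φ) n)) := by
      funext n
      simp only [Function.comp]
      rw [hkn, t0_nvec_add_int]
    rw [hn3] at hn1
    have hnn : nvec (ν s) = nvec (ν t₀) := tendsto_nhds_unique hn1 hn2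
    have hγ : γ s = γ t₀ := by
      apply t0_unique_max (closure Ω) T.sconv (nvec (ν t₀)) _ _ (t0_nvec_ne_zero _) (T.mem_closure s) (T.mem_closure t₀)
      · intro z hz
        have := hsS z hz
        rwa [hnn] at this
      · exact ht₀
    obtain ⟨k, hk⟩ := T.eq_iff s t₀ hγ
    have hk0 : k = 0 := by
      have h1 : |(k : ℝ) * L| ≤ L / 2 := by
        rw [abs_le]
        constructor <;> linarith [hs.1, hs.2]
      rw [abs_mul, abs_of_pos hL] at h1
      have h2 : |(k : ℝ)| < 1 := by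
        by_contra hc
        push Not at hc
        nlinarith
      have h3 : |k| < 1 := by exact_mod_cast h2
      exact Int.abs_lt_one_iff.1 h3
    have hst : s = t₀ := by rw [hk, hk0]; simp
    rw [hst] at hlim
    have hdiff : Filter.Tendsto (fun n => ν ((sn ∘ φ) n) - ν ((tn ∘ φ) n)) Filter.atTop (nhds 0) := by
      have := ((N.continuous.tendsto t₀).comp hlim).sub ((N.continuous.tendsto t₀).comp htφ)
      simpa using this
    have hev : ∀ᶠ n in Filter.atTop, |ν ((sn ∘ φ) n) - ν ((tn ∘ φ) n)| < 2 * π := by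
      have : Set.Ioo (-(2 * π)) (2 * π) ∈ nhds (0 : ℝ) := Ioo_mem_nhds (by linarith [pi_pos]) (by linarith [pi_pos])
      filter_upwards [hdiff this] with n hn
      exact abs_lt.2 hn
    obtain ⟨n, hn⟩ := hev.exists
    simp only [Function.comp] at hn
    rw [hkn] at hn
    have h0 : kn (φ n) = 0 := by
      have e1 : ν (tn (φ n)) + (kn (φ n) : ℝ) * (2 * π) - ν (tn (φ n)) = (kn (φ n) : ℝ) * (2 * π) := by ring
      rw [e1, abs_mul, abs_of_pos (by linarith [pi_pos] : (0 : ℝ) < 2 * π)] at hn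
      have h2 : |(kn (φ n) : ℝ)| < 1 := by
        have : (0 : ℝ) < 2 * π := by linarith [pi_pos]
        by_contra hc
        push Not at hc
        nlinarith
      have h3 : |kn (φ n)| < 1 := by exact_mod_cast h2
      exact Int.abs_lt_one_iff.1 h3
    have h1 : sn (φ n) = tn (φ n) := by
      apply N.injective
      rw [hkn, h0]
      simp
    exact hnS (φ n) (h1 ▸ hsn2 (φ n))
  have : S = Set.univ := IsClopen.eq_univ ⟨hclosed, hopen⟩ hne
  have h2 : t ∈ S := this ▸ Set.mem_univ t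
  exact h2

theorem t0a_shift (T : IsTable Ω γ L) (N : IsNormal γ ν σ) (t : ℝ) : ν (t + L) = ν t + σ * (2 * π) := by
  have hL := T.Lpos
  have hπ : (0 : ℝ) < 2 * π := by linarith [pi_pos]
  obtain ⟨k, hk⟩ := t0a_nvec_per T N t
  have hmono : σ * ν t < σ * ν (t + L) := N.strictMono (by linarith)
  have hσσ := N.sigma_sq
  -- `σ k ≥ 1`
  have hk1 : (1 : ℝ) ≤ σ * k := by
    rw [hk] at hmono
    have h1 : 0 < (σ * k) * (2 * π) := by nlinarith
    have h2 : 0 < σ * k := by
      by_contra hc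
      push Not at hc
      nlinarith
    rcases N.sign with h | h
    · rw [h] at h2 ⊢
      have : (0 : ℤ) < k := by
        have : (0 : ℝ) < k := by linarith
        exact_mod_cast this
      have : (1 : ℤ) ≤ k := this
      have : (1 : ℝ) ≤ k := by exact_mod_cast this
      linarith
    · rw [h] at h2 ⊢
      have : k < (0 : ℤ) := by
        have : (k : ℝ) < 0 := by linarith
        exact_mod_cast this
      have : k ≤ (-1 : ℤ) := by omega
      have : (k : ℝ) ≤ -1 := by exact_mod_cast this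
      linarith
  -- IVT
  have hc : ContinuousOn (fun s => σ * ν s) (Set.Icc t (t + L)) := (continuous_const.mul N.continuous).continuousOn
  have hmem : σ * ν t + 2 * π ∈ Set.Icc (σ * ν t) (σ * ν (t + L)) := by
    refine ⟨by linarith, ?_⟩
    rw [hk]
    have : σ * (ν t + k * (2 * π)) = σ * ν t + (σ * k) * (2 * π) := by ring
    rw [this]
    nlinarith
  obtain ⟨t', ht', e⟩ := intermediate_value_Icc (by linarith : t ≤ t + L) hc hmem
  simp only at e
  have e' : ν t' = ν t + σ * (2 * π) := by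
    have e1 : σ * (σ * ν t') = σ * (σ * ν t + 2 * π) := by rw [e]
    have e2 : σ * (σ * ν t') = (σ * σ) * ν t' := by ring
    have e3 : σ * (σ * ν t + 2 * π) = (σ * σ) * ν t + σ * (2 * π) := by ring
    rw [e2, e3, hσσ, one_mul, one_mul] at e1
    exact e1
  have hnn : nvec (ν t') = nvec (ν t) := by
    rw [e']
    rcases N.sign with h | h
    · rw [h]
      have := t0_nvec_add_int (ν t) 1
      simpa using this
    · rw [h]
      have := t0_nvec_add_int (ν t) (-1)
      simpa using this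
  have hγ : γ t' = γ t := by
    apply t0_unique_max (closure Ω) T.sconv (nvec (ν t)) _ _ (t0_nvec_ne_zero _) (T.mem_closure t') (T.mem_closure t)
    · intro z hz
      have := t0a_max_all T N t' z hz
      rwa [hnn] at this
    · exact t0a_max_all T N t
  obtain ⟨m, hm⟩ := T.eq_iff t' t hγ
  have htt : t ≠ t' := by
    intro h
    rw [← h] at e'
    have : σ * (2 * π) = 0 := by linarith
    rcases mul_eq_zero.1 this with h1 | h1
    · exact N.sigma_ne h1
    · linarith
  have hm1 : m = 1 := by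
    have h1 : 0 < (m : ℝ) * L := by
      have := lt_of_le_of_ne ht'.1 htt
      linarith
    have h2 : (m : ℝ) * L ≤ L := by linarith [ht'.2]
    have h3 : (0 : ℝ) < m := by
      by_contra hc
      push Not at hc
      nlinarith
    have h4 : (m : ℝ) ≤ 1 := by
      by_contra hc
      push Not at hc
      nlinarith
    have h5 : (0 : ℤ) < m := by exact_mod_cast h3
    have h6 : m ≤ (1 : ℤ) := by exact_mod_cast h4
    omega
  rw [hm1] at hm
  have : t' = t + L := by rw [hm]; simp
  rw [← this, e']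

end Claimed.Agent.R269
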