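/-
Row 269, front ends, LEAF  LF-T0a-Support :  the support function;  `t0a_main`.        Sub-captain: helper113.
Uses T0/Gauss.lean, T0/Conv.lean (statements).     Source: P1 02-analytic.tex l.29-45, P2 geometry.tex l.13-30.

PLAN.  `ν, σ` from `t0a_normal`; `ν` is smooth, `σ ν` strictly increasing with `ν (t + L) = ν t + σ 2π` (`t0a_shift`), hence `ν` is bijective
(`t0a_nu_surj`: IVT + unboundedness from the shift).   `τ := ν⁻¹` (`Function.invFun ν` or `Equiv.ofBijective`).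
(1) `τ` is smooth: `ν` is a homeomorphism (`StrictMono.orderIsoOfSurjective` for `σ ν`, or `Homeomorph` from continuous bijective monotone), and
    `OpenPartialHomeomorph.contDiffAt_symm_deriv` (`deriv ν ≠ 0`);  `HasDerivAt τ (deriv ν (τ θ))⁻¹ θ`.
(2) `h θ := dotR (γ (τ θ)) (nvec θ)`.   Smooth.   Periodic: `τ (θ + 2π) = τ θ + σ L`, `γ` is `L`-periodic (`σ = ±1`).
(3) `deriv h θ = dotR (γ (τ θ)) (evec θ)`  (the term `τ' γ' (τ θ) · n_θ` vanishes: `γ' (τ θ) ∥ e_θ`);  so `bpt h θ = γ (τ θ)` (`t0_expand`), i.e.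
    `γ t = bpt h (ν t)`.
(4) `deriv (deriv h) θ = τ' θ (γ' (τ θ) · e_θ) - dotR (γ (τ θ)) (nvec θ)`, so `h + h'' = τ' θ σ c = σ c / deriv ν (τ θ) > 0`.
(5) `Ω = tableOf 0 h`:   `⊆`: `t0a_max_all` at `t = τ θ` gives `≤`; strict because `x + ε n_θ ∈ Ω`.   `⊇`: if `x ∉ closure Ω` use `t0_separate` (with `y = γ (τ θ)`);
    if `x ∈ closure Ω \ Ω = frontier Ω = range γ`, `x = γ t`, then `x · n_(ν t) = h (ν t)`.
-/
import Claimed.Agent.R269.T0.Gauss

set_option autoImplicit false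

namespace Claimed.Agent.R269

open Real

variable {Ω : Set (ℝ × ℝ)} {γ : ℝ → ℝ × ℝ} {L : ℝ} {ν : ℝ → ℝ} {σ : ℝ}

theorem t0_shift_int {ν : ℝ → ℝ} {L c : ℝ} (hs : ∀ t, ν (t + L) = ν t + c) (t : ℝ) (m : ℤ) :
    ν (t + m * L) = ν t + m * c := by
  induction m using Int.induction_on with
  | zero => simp
  | succ i ih =>
    have e : t + ((i : ℤ) + 1 : ℤ) * L = t + (i : ℤ) * L + L := by push_cast; ring
    rw [e, hs, ih]
    push_cast
    ring
  | pred i ih =>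
    have e : t + (-(i : ℤ) - 1 : ℤ) * L + L = t + (-(i : ℤ) : ℤ) * L := by push_cast; ring
    have := hs (t + (-(i : ℤ) - 1 : ℤ) * L)
    rw [e, ih] at this
    push_cast at this ⊢
    linarith

theorem t0_surj_of_shift {ν : ℝ → ℝ} {L c : ℝ} (hc : Continuous ν) (hc0 : c ≠ 0) (hs : ∀ t, ν (t + L) = ν t + c) :
    Function.Surjective ν := by
  intro y
  obtain ⟨n, hn⟩ := exists_nat_ge (|y - ν 0| / |c|)
  have hcp : 0 < |c| := abs_pos.2 hc0
  rw [div_le_iff₀ hcp] at hn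
  have h1 := t0_shift_int hs 0 (n : ℤ)
  have h2 := t0_shift_int hs 0 (-(n : ℤ))
  push_cast at h1 h2
  have h3 := abs_le.1 (le_refl |y - ν 0|)
  apply mem_range_of_exists_le_of_exists_ge hc
  · rcases abs_cases c with ⟨e, _⟩ | ⟨e, _⟩
    · exact ⟨_, by rw [h2]; rw [e] at hn; linarith⟩
    · exact ⟨_, by rw [h1]; rw [e] at hn; linarith⟩
  · rcases abs_cases c with ⟨e, _⟩ | ⟨e, _⟩
    · exact ⟨_, by rw [h1]; rw [e] at hn; linarith⟩
    · exact ⟨_, by rw [h2]; rw [e] at hn; linarith⟩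

theorem t0a_nu_surj (T : IsTable Ω γ L) (N : IsNormal γ ν σ) : Function.Surjective ν :=
  t0_surj_of_shift N.continuous (mul_ne_zero N.sigma_ne (by positivity)) (t0a_shift T N)

/-- the smooth inverse of the normal angle. -/
theorem t0a_inverse (T : IsTable Ω γ L) (N : IsNormal γ ν σ) :
    ∃ τ : ℝ → ℝ, ContDiff ℝ ((⊤ : ℕ∞) : WithTop ℕ∞) τ ∧ (∀ t, τ (ν t) = t) ∧ (∀ θ, ν (τ θ) = θ) ∧
      (∀ θ, 0 < σ * deriv τ θ) ∧ (∀ θ, τ (θ + 2 * π) = τ θ + σ * L) := by
  have hσσ := N.sigma_sq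
  have hsurj : Function.Surjective fun t => σ * ν t := by
    intro y
    obtain ⟨t, ht⟩ := t0a_nu_surj T N (σ * y)
    refine ⟨t, ?_⟩
    show σ * ν t = y
    rw [ht, ← mul_assoc, hσσ, one_mul]
  set e : ℝ ≃ₜ ℝ := (N.strictMono.orderIsoOfSurjective _ hsurj).toHomeomorph with he
  have he1 : ∀ t, e t = σ * ν t := fun t => rfl
  have hsm : ContDiff ℝ ((⊤ : ℕ∞) : WithTop ℕ∞) e.symm := by
    rw [contDiff_iff_contDiffAt]
    intro a
    have h1 : HasDerivAt e (σ * deriv ν (e.symm a)) (e.symm a) := (N.hasDerivAt _).const_mul σ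
    have h2 : ContDiffAt ℝ ((⊤ : ℕ∞) : WithTop ℕ∞) e (e.symm a) :=
      (contDiff_const.mul N.smooth).contDiffAt
    exact e.toOpenPartialHomeomorph.contDiffAt_symm_deriv (N.dpos _).ne' (Set.mem_univ _) h1 h2
  set τ : ℝ → ℝ := fun θ => e.symm (σ * θ) with hτ
  have hτs : ContDiff ℝ ((⊤ : ℕ∞) : WithTop ℕ∞) τ := hsm.comp (contDiff_const.mul contDiff_id)
  have h1 : ∀ t, τ (ν t) = t := by
    intro t
    show e.symm (σ * ν t) = t
    rw [← he1, e.symm_apply_apply]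
  have h2 : ∀ θ, ν (τ θ) = θ := by
    intro θ
    have : e (τ θ) = σ * θ := e.apply_symm_apply _
    rw [he1] at this
    exact mul_left_cancel₀ N.sigma_ne this
  refine ⟨τ, hτs, h1, h2, fun θ => ?_, fun θ => ?_⟩
  · have hd : HasDerivAt τ (deriv τ θ) θ := ((contDiff_infty_iff_deriv.1 hτs).1 θ).hasDerivAt
    have h3 : HasDerivAt (fun θ => ν (τ θ)) (deriv ν (τ θ) * deriv τ θ) θ := (N.hasDerivAt (τ θ)).comp θ hd
    have h4 : (fun θ => ν (τ θ)) = id := funext h2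
    rw [h4] at h3
    have h5 := h3.unique (hasDerivAt_id θ)
    have h6 := N.dpos (τ θ)
    have h7 : (σ * deriv ν (τ θ)) * (σ * deriv τ θ) = 1 := by
      have : (σ * deriv ν (τ θ)) * (σ * deriv τ θ) = (σ * σ) * (deriv ν (τ θ) * deriv τ θ) := by ring
      rw [this, hσσ, h5, one_mul]
    by_contra hc
    push Not at hc
    nlinarith
  · apply N.injective
    rw [h2]
    have h3 : ν (τ θ + σ * L) = ν (τ θ) + σ * (σ * (2 * π)) := by
      rcases N.sign with h | h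
      · have := t0_shift_int (t0a_shift T N) (τ θ) 1
        rw [h] at this ⊢
        simpa using this
      · have := t0_shift_int (t0a_shift T N) (τ θ) (-1)
        rw [h] at this ⊢
        simpa using this
    rw [h3, h2, ← mul_assoc, hσσ, one_mul]

theorem t0_hasDerivAt_nvec (θ : ℝ) : HasDerivAt nvec (evec θ) θ := by
  unfold nvec evec
  exact (hasDerivAt_cos θ).prodMk (hasDerivAt_sin θ)

theorem t0_hasDerivAt_evec (θ : ℝ) : HasDerivAt evec (-nvec θ) θ := by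
  unfold nvec evec
  exact (hasDerivAt_sin θ).neg.prodMk (hasDerivAt_cos θ)

theorem t0_hasDerivAt_dot2 {c n : ℝ → ℝ × ℝ} {c' n' : ℝ × ℝ} {s : ℝ} (hc : HasDerivAt c c' s) (hn : HasDerivAt n n' s) :
    HasDerivAt (fun t => dotR (c t) (n t)) (dotR c' (n s) + dotR (c s) n') s := by
  unfold dotR
  have := ((t0_hasDerivAt_fst hc).mul (t0_hasDerivAt_fst hn)).add ((t0_hasDerivAt_snd hc).mul (t0_hasDerivAt_snd hn))
  refine this.congr_deriv ?_
  ring

/-- the support function and its first two derivatives. -/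
theorem t0a_support (T : IsTable Ω γ L) (N : IsNormal γ ν σ) (τ : ℝ → ℝ)
    (hτ : ContDiff ℝ ((⊤ : ℕ∞) : WithTop ℕ∞) τ) (h1 : ∀ t, τ (ν t) = t) (h2 : ∀ θ, ν (τ θ) = θ)
    (h3 : ∀ θ, 0 < σ * deriv τ θ) (h4 : ∀ θ, τ (θ + 2 * π) = τ θ + σ * L) :
    IsSupport (fun θ => dotR (γ (τ θ)) (nvec θ)) ∧
      ∀ θ, deriv (fun θ => dotR (γ (τ θ)) (nvec θ)) θ = dotR (γ (τ θ)) (evec θ) := by
  have hτd : ∀ θ, HasDerivAt τ (deriv τ θ) θ := fun θ => ((contDiff_infty_iff_deriv.1 hτ).1 θ).hasDerivAt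
  have hγτ : ∀ θ, HasDerivAt (fun θ => γ (τ θ)) (deriv τ θ • deriv γ (τ θ)) θ := fun θ =>
    (T.hasDerivAt (τ θ)).scomp θ (hτd θ)
  have hd1 : ∀ θ, HasDerivAt (fun θ => dotR (γ (τ θ)) (nvec θ)) (dotR (γ (τ θ)) (evec θ)) θ := by
    intro θ
    have := t0_hasDerivAt_dot2 (hγτ θ) (t0_hasDerivAt_nvec θ)
    refine this.congr_deriv ?_
    obtain ⟨c, hc, e⟩ := N.tangent (τ θ)
    rw [e, h2, t0_dot_smul, t0_dot_smul, t0_dot_en]
    simp
  have hderiv : deriv (fun θ => dotR (γ (τ θ)) (nvec θ)) = fun θ => dotR (γ (τ θ)) (evec θ) :=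
    funext fun θ => (hd1 θ).deriv
  refine ⟨⟨?_, ?_, ?_⟩, fun θ => (hd1 θ).deriv⟩
  · have a1 := T.smooth.comp hτ
    simp only [dotR, nvec]
    exact (a1.fst.mul contDiff_cos).add (a1.snd.mul contDiff_sin)
  · intro θ
    simp only
    have e1 : γ (τ θ + σ * L) = γ (τ θ) := by
      rcases N.sign with h | h
      · have := T.add_int (τ θ) 1
        rw [h]
        simpa using this
      · have := T.add_int (τ θ) (-1)
        rw [h]
        simpa using this
    have e2 : nvec (θ + 2 * π) = nvec θ := by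
      have := t0_nvec_add_int θ 1
      simpa using this
    rw [h4, e1, e2]
  · intro θ
    rw [hderiv]
    have := t0_hasDerivAt_dot2 (hγτ θ) (t0_hasDerivAt_evec θ)
    rw [this.deriv]
    obtain ⟨c, hc, e⟩ := N.tangent (τ θ)
    rw [e, h2, t0_dot_smul, t0_dot_smul, t0_dot_ee]
    have e3 : dotR (γ (τ θ)) (-nvec θ) = -dotR (γ (τ θ)) (nvec θ) := by
      simp only [dotR, Prod.fst_neg, Prod.snd_neg]
      ring
    rw [e3]
    simp only [sub_self, cos_zero, mul_one]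
    have := mul_pos (h3 θ) hc
    nlinarith

theorem t0a_table (T : IsTable Ω γ L) (N : IsNormal γ ν σ) (τ : ℝ → ℝ) (h1 : ∀ t, τ (ν t) = t) (h2 : ∀ θ, ν (τ θ) = θ) :
    Ω = tableOf 0 (fun θ => dotR (γ (τ θ)) (nvec θ)) := by
  have hmax : ∀ θ, ∀ y ∈ closure Ω, dotR y (nvec θ) ≤ dotR (γ (τ θ)) (nvec θ) := by
    intro θ y hy
    have := t0a_max_all T N (τ θ) y hy
    rwa [h2] at this
  ext x
  simp only [tableOf, Set.mem_ofPred_eq, sub_zero]
  constructor
  · intro hx θ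
    refine lt_of_le_of_ne (hmax θ x (subset_closure hx)) fun he => ?_
    refine t0_max_not_interior (closure Ω) (nvec θ) x (t0_nvec_ne_zero θ) (fun y hy => ?_) (T.subset_interior hx)
    rw [he]
    exact hmax θ y hy
  · intro hx
    by_contra hxΩ
    by_cases hxc : x ∈ closure Ω
    · have hxf : x ∈ frontier Ω := by
        rw [frontier, T.isOpen.interior_eq]
        exact ⟨hxc, hxΩ⟩
      rw [T.bd] at hxf
      obtain ⟨t, rfl⟩ := hxf
      have := hx (ν t)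
      rw [h1] at this
      exact lt_irrefl _ this
    · obtain ⟨θ, hθ⟩ := t0_separate (closure Ω) T.sconv.convex isClosed_closure x hxc
      have := hθ _ (T.mem_closure (τ θ))
      exact lt_asymm this (hx θ)

/-- **T0a.** -/
theorem t0a_main (T : IsTable Ω γ L) : ∃ (h ν : ℝ → ℝ) (σ : ℝ), IsBdryParam Ω γ L h ν σ := by
  obtain ⟨ν, σ, N⟩ := t0a_normal T
  obtain ⟨τ, hτ, h1, h2, h3, h4⟩ := t0a_inverse T N
  obtain ⟨hs, hd⟩ := t0a_support T N τ hτ h1 h2 h3 h4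
  refine ⟨_, ν, σ, hs, t0a_table T N τ h1 h2, N.sign, N.continuous, N.strictMono, t0a_shift T N, fun t => ?_,
    N.tangent, N.curv⟩
  rw [bpt, hd, h1]
  exact t0_expand _ _

/-! ### consequences used by T0b and T0p -/

theorem IsBdryParam.surj {h : ℝ → ℝ} (P : IsBdryParam Ω γ L h ν σ) : Function.Surjective ν := by
  refine t0_surj_of_shift P.cont (mul_ne_zero ?_ (by positivity)) P.shift
  rcases P.sign with h | h <;> rw [h] <;> norm_num

theorem IsBdryParam.mem_iff {h : ℝ → ℝ} (P : IsBdryParam Ω γ L h ν σ) (x : ℝ × ℝ) :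
    x ∈ Ω ↔ ∀ θ, dotR x (nvec θ) < h θ := by
  conv_lhs => rw [P.table]
  simp only [tableOf, Set.mem_ofPred_eq, sub_zero]

theorem IsBdryParam.le_of_mem_closure {h : ℝ → ℝ} (P : IsBdryParam Ω γ L h ν σ) (x : ℝ × ℝ) (hx : x ∈ closure Ω) (θ : ℝ) :
    dotR x (nvec θ) ≤ h θ := by
  have h1 : closure Ω ⊆ {y | dotR y (nvec θ) ≤ h θ} := by
    apply closure_minimal
    · intro y hy
      exact ((P.mem_iff y).1 hy θ).le
    · exact isClosed_le (t0_continuous_dot _) continuous_const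
  exact h1 hx

end Claimed.Agent.R269
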