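/-
Row 269, front end T0 (S0510), LEAF  LF-T0b-Caustic :  a convex caustic gives an invariant graph in the space of oriented lines.    Sub-captain: helper113.
Uses T0/Support.lean, T0/Conv.lean, T0/Model.lean (statements), Prelude Def_0438.     Source: P1 02-analytic.tex l.99-110 (simplified: NO smallness is needed,
the wrong orientation is excluded for all angular steps `< π`).

SETTING.  `G θ = max over the caustic of x · n_θ`.   `θ < θ' < θ + π`, `ψ = (θ+θ')/2`, `d = (θ'-θ)/2 ∈ (0, π/2)`, `y = bpt h ψ`, `p = pIn h θ θ' = y · n_θ`,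
`p' = pOut h θ θ' = y · n_θ'` (`t0_pIn_eq`, `t0_pOut_eq`).   Assume `p = G θ`.
(1) Let `k = c s₀` with `k · n_θ = G θ = p`;  `k ∈ Ω`;  `c' s₀ · n_θ = 0` (`t0_deriv_dot_eq_zero`).
(2) `t0b_chord_back`: `y - k ⊥ n_θ`, so `y - k = λ e_θ` (`t0_orth_nvec`);  `(y - k) · n_ψ = h ψ - k · n_ψ > 0` (`IsBdryParam.mem_iff`) and `e_θ · n_ψ = sin d > 0`, so `λ > 0`.
    `t0_exit` from `k` in the direction `- e_θ`: `x₀ = k - t e_θ ∈ frontier Ω = range γ`.   So `x₀ = γ s`, `y = γ t` (`t` with `ν t = ψ`, `IsBdryParam.surj`, `point`),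
    `y - x₀ = (λ + t) e_θ`, `k ∈ segment x₀ y`.     `TangentSegment c (γ s) (γ t)` holds with `s₀` (`det2 (y - x₀) (c' s₀) = 0` because both are multiples of `e_θ`).
(3) `t0b_reflect`: with `v = a e_θ` and `γ' t = μ e_ψ` (`μ ≠ 0`): `(2 (v · γ') / (γ' · γ')) γ' - v = a (2 cos d e_ψ - e_θ) = a e_θ'`    (`2 cos d e_ψ = e_(ψ-d) + e_(ψ+d)`).
(4) `t0b_forward`: there is `a' > 0` with `y + a' e_θ' ∈ range γ`:   `-h (θ'+π) < p' < h θ'` (`t0_pOut_gt`, `t0_pOut_lt`), so the points `bpt h θ'`, `bpt h (θ'+π)` of `closure Ω` lie strictly on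
    different sides of the line `x · n_θ' = p'`; a point `m` of the segment between them lies on the line, and `m ∈ interior (closure Ω) = Ω` by `StrictConvex`
    (`Ω = interior (closure Ω)`: from `IsBdryParam.mem_iff`/`le_of_mem_closure`, or prove `m ∈ Ω` directly with `mem_iff`: for every `φ`, `m · n_φ` is a strict convex combination of
    two numbers `≤ h φ`, one of which is `< h φ` by `t0_bpt_dot_lt`).    `m - y = λ' e_θ'`, `(m - y) · n_ψ < 0`, `e_θ' · n_ψ = - sin d < 0`, so `λ' > 0`;  `t0_exit` from `m` in the direction `e_θ'`.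
(5) caustic property (with `a := a' / (length factor)`): `TangentSegment c y z`, `z = y + a' e_θ'`: `k' = c s₁ ∈ segment y z`, `det2 (z - y) (c' s₁) = 0`, so `c' s₁ ∥ e_θ'` and `k' · n_θ' = p'`.
(6) `t0_tangent_support` for `K`, `c`, `s₁` (`c s₁ ∈ frontier K`; `interior K ≠ ∅`: otherwise `K = frontier K = range c` would be strictly convex with empty interior, hence a subsingleton, but `c` is injective on `[0, ℓ)`):
    `n ≠ 0`, `c' s₁ · n = 0`, so `n = λ'' n_θ'`.   `λ'' > 0`: `x · n_θ' ≤ p'` on `K ⊇ range c` and `= p'` at `k'`: `G θ' = p'`.    `λ'' < 0`: `k · n_θ' ≥ p'`; but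
    `(k - y) · n_θ' = - λ e_θ · n_θ' = - λ sin (θ' - θ) < 0`: contradiction.
-/
import Claimed.Agent.R269.T0.Support
import Claimed.Agent.R269.T0.Chord
import Claimed.Prelude.Def_0438

set_option autoImplicit false

namespace Claimed.Agent.R269

open Real

variable {Ω : Set (ℝ × ℝ)} {γ : ℝ → ℝ × ℝ} {L : ℝ} {h ν : ℝ → ℝ} {σ : ℝ}

/-- the backward end point of the chord through `k ∈ Ω` arriving at `bpt h ψ` in the direction `e_θ`. -/
theorem t0b_chord_back (T : IsTable Ω γ L) (P : IsBdryParam Ω γ L h ν σ) (θ θ' : ℝ) (h1 : θ < θ') (h2 : θ' < θ + 2 * π)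
    (k : ℝ × ℝ) (hk : k ∈ Ω) (hkp : dotR k (nvec θ) = pIn h θ θ') :
    ∃ (s t a lam : ℝ), ν t = (θ + θ') / 2 ∧ 0 < a ∧ 0 < lam ∧ γ t - γ s = a • evec θ ∧ γ t - k = lam • evec θ ∧
      k ∈ segment ℝ (γ s) (γ t) := by
  obtain ⟨t, ht⟩ := P.surj ((θ + θ') / 2)
  have hy : γ t = bpt h ((θ + θ') / 2) := by rw [P.point, ht]
  set w := γ t - k with hw
  have hw0 : dotR w (nvec θ) = 0 := by
    rw [hw, t0_dot_sub, hkp, hy, t0_pIn_eq, sub_self]
  have hw1 := t0_orth_nvec w θ hw0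
  set lam := dotR w (evec θ) with hlam
  have hlam0 : 0 < lam := by
    have a1 : 0 < dotR w (nvec ((θ + θ') / 2)) := by
      rw [hw, t0_dot_sub, hy, t0_bpt_dot_self]
      have := (P.mem_iff k).1 hk ((θ + θ') / 2)
      linarith
    rw [hw1, t0_dot_smul, t0_dot_en] at a1
    have a2 : 0 < sin ((θ + θ') / 2 - θ) := sin_pos_of_pos_of_lt_pi (by linarith) (by linarith)
    by_contra hc
    push Not at hc
    nlinarith
  obtain ⟨t₁, ht₁, hf, -⟩ := t0_exit Ω T.isOpen T.bdd k (-evec θ) hk (neg_ne_zero.2 (t0_evec_ne_zero θ))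
  rw [T.bd] at hf
  obtain ⟨s, hs⟩ := hf
  have e1 : γ t = k + lam • evec θ := by
    rw [← hw1, hw]
    abel
  refine ⟨s, t, lam + t₁, lam, ht, by positivity, hlam0, ?_, hw1, ?_⟩
  · rw [hs, e1, add_smul, smul_neg]
    abel
  · refine ⟨lam / (lam + t₁), t₁ / (lam + t₁), by positivity, by positivity, by field_simp, ?_⟩
    rw [hs, e1]
    have hne : lam + t₁ ≠ 0 := by positivity
    ext
    · simp only [Prod.fst_add, Prod.smul_fst, smul_eq_mul, Prod.fst_neg]
      field_simp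
      ring
    · simp only [Prod.snd_add, Prod.smul_snd, smul_eq_mul, Prod.snd_neg]
      field_simp
      ring

/-- the reflection law in angles. -/
theorem t0b_reflect (θ θ' a μ : ℝ) (hμ : μ ≠ 0) :
    (2 * Claims.C0438.dot2 (a • evec θ) (μ • evec ((θ + θ') / 2))
        / Claims.C0438.dot2 (μ • evec ((θ + θ') / 2)) (μ • evec ((θ + θ') / 2))) • (μ • evec ((θ + θ') / 2)) - a • evec θ
      = a • evec θ' := by
  set ψ := (θ + θ') / 2 with hψ
  set d := (θ' - θ) / 2 with hd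
  have e1 : θ = ψ - d := by rw [hψ, hd]; ring
  have e2 : θ' = ψ + d := by rw [hψ, hd]; ring
  rw [e1, e2]
  have hcs := sin_sq_add_cos_sq ψ
  have h1 : Claims.C0438.dot2 (μ • evec ψ) (μ • evec ψ) = μ ^ 2 := by
    simp only [Claims.C0438.dot2, evec, Prod.smul_fst, Prod.smul_snd, smul_eq_mul]
    linear_combination μ ^ 2 * hcs
  have h2 : Claims.C0438.dot2 (a • evec (ψ - d)) (μ • evec ψ) = a * μ * cos d := by
    simp only [Claims.C0438.dot2, evec, Prod.smul_fst, Prod.smul_snd, smul_eq_mul, sin_sub, cos_sub]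
    linear_combination (a * μ * cos d) * hcs
  rw [h1, h2]
  have h3 : 2 * (a * μ * cos d) / μ ^ 2 * μ = 2 * a * cos d := by
    field_simp
  rw [smul_smul, h3]
  ext
  · simp only [evec, Prod.fst_sub, Prod.smul_fst, smul_eq_mul, sin_sub, sin_add]
    ring
  · simp only [evec, Prod.snd_sub, Prod.smul_snd, smul_eq_mul, cos_sub, cos_add]
    ring

/-- the reflected ray meets the boundary again. -/
theorem t0b_forward (T : IsTable Ω γ L) (P : IsBdryParam Ω γ L h ν σ) (θ θ' : ℝ) (h1 : θ < θ') (h2 : θ' < θ + 2 * π) :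
    ∃ a : ℝ, 0 < a ∧ bpt h ((θ + θ') / 2) + a • evec θ' ∈ Set.range γ := by
  obtain ⟨n1, n2, n3⟩ := t0_nxt_spec P.supp (a := θ) (b := θ') ⟨h1, h2⟩
  rw [t0_pIn_eq, t0_pOut_eq] at n3
  obtain ⟨t, ht, e⟩ := t0_chord_fwd P.supp ((θ + θ') / 2) ((θ' + nxt h θ θ') / 2) θ' (by linarith) (by linarith)
    (by linarith) (by linarith) n3
  refine ⟨t, ht, ?_⟩
  rw [← e]
  obtain ⟨s, hs⟩ := P.surj ((θ' + nxt h θ θ') / 2)
  exact ⟨s, by rw [P.point, hs]⟩

/-- the convex body of a caustic has interior points. -/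
theorem t0b_interior_nonempty (c : ℝ → ℝ × ℝ) (ℓ : ℝ) (hc : Claims.C0438.IsSmoothSimpleClosedRegular c ℓ) (K : Set (ℝ × ℝ))
    (hK : StrictConvex ℝ K) (hcl : IsClosed K) (hf : frontier K = Set.range c) : (interior K).Nonempty := by
  obtain ⟨hℓ, -, -, hinj, -⟩ := hc
  have h1 : c 0 ∈ K := hcl.frontier_subset (hf ▸ Set.mem_range_self 0)
  have h2 : c (ℓ / 2) ∈ K := hcl.frontier_subset (hf ▸ Set.mem_range_self (ℓ / 2))
  have hne : c 0 ≠ c (ℓ / 2) := by
    intro e
    have := hinj ⟨le_rfl, hℓ⟩ ⟨by linarith, by linarith⟩ e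
    linarith
  exact ⟨_, hK h1 h2 hne (by norm_num : (0 : ℝ) < 1 / 2) (by norm_num : (0 : ℝ) < 1 / 2) (by norm_num)⟩

theorem t0b_det2_evec (φ : ℝ) (w : ℝ × ℝ) : Claims.C0438.det2 (evec φ) w = -dotR w (nvec φ) := by
  simp only [Claims.C0438.det2, evec, dotR, nvec]
  ring

theorem t0b_det2_smul (a : ℝ) (u w : ℝ × ℝ) : Claims.C0438.det2 (a • u) w = a * Claims.C0438.det2 u w := by
  simp only [Claims.C0438.det2, Prod.smul_fst, Prod.smul_snd, smul_eq_mul]
  ring

/-- **invariance of the graph of the support function of a convex caustic.** -/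
theorem t0b_caustic_inv (T : IsTable Ω γ L) (P : IsBdryParam Ω γ L h ν σ) (c : ℝ → ℝ × ℝ) (ℓ : ℝ)
    (hc : Claims.C0438.IsConvexCaustic Ω γ c ℓ) (G : ℝ → ℝ)
    (hG : ∀ θ, IsGreatest ((fun x => dotR x (nvec θ)) '' Set.range c) (G θ))
    (θ θ' : ℝ) (h1 : θ < θ') (h2 : θ' < θ + π) (e : pIn h θ θ' = G θ) : pOut h θ θ' = G θ' := by
  have hπ := pi_pos
  obtain ⟨hreg, hcΩ, ⟨K, hKc, hKs, hKf⟩, hcaus⟩ := hc
  have hcd : ∀ s, DifferentiableAt ℝ c s := fun s => (contDiff_infty_iff_deriv.1 hreg.2.1).1 s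
  -- (1) the point of tangency on the incoming line
  obtain ⟨⟨_, ⟨s₀, rfl⟩, hk⟩, hGub⟩ := hG θ
  simp only at hk
  have hkΩ : c s₀ ∈ Ω := hcΩ (Set.mem_range_self s₀)
  have hd0 : dotR (deriv c s₀) (nvec θ) = 0 := by
    apply t0_deriv_dot_eq_zero c _ s₀ (hcd s₀)
    intro t
    rw [hk]
    exact hGub ⟨_, Set.mem_range_self t, rfl⟩
  -- (2) the incoming chord
  obtain ⟨s, t, a, lam, ht, ha, hlam, hst, htk, hseg⟩ :=
    t0b_chord_back T P θ θ' h1 (by linarith) (c s₀) hkΩ (by rw [hk, e])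
  have hne : γ s ≠ γ t := by
    intro h0
    rw [h0, sub_self] at hst
    exact smul_ne_zero ha.ne' (t0_evec_ne_zero θ) hst.symm
  have htan : Claims.C0438.TangentSegment c (γ s) (γ t) := by
    refine ⟨s₀, hseg, ?_⟩
    rw [hst, t0b_det2_smul, t0b_det2_evec, hd0]
    simp
  -- (3) the reflected direction
  obtain ⟨c₁, hc₁, hγ'⟩ := P.tangent t
  have hσ : σ ≠ 0 := by rcases P.sign with h | h <;> rw [h] <;> norm_num
  have hR : (2 * Claims.C0438.dot2 (γ t - γ s) (deriv γ t) / Claims.C0438.dot2 (deriv γ t) (deriv γ t)) • deriv γ t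
      - (γ t - γ s) = a • evec θ' := by
    rw [hst, hγ', ht]
    exact t0b_reflect θ θ' a (σ * c₁) (mul_ne_zero hσ hc₁.ne')
  -- (4) the outgoing chord
  obtain ⟨a', ha', hfw⟩ := t0b_forward T P θ θ' h1 (by linarith)
  have hy : γ t = bpt h ((θ + θ') / 2) := by rw [P.point, ht]
  have hz : γ t + (a' / a) • (a • evec θ') = γ t + a' • evec θ' := by
    rw [smul_smul]
    congr 2
    field_simp
  have h5 := hcaus s t hne htan (a' / a) (by positivity)
  rw [hR, hz, hy] at h5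
  obtain ⟨s₁, hseg₁, hdet₁⟩ := h5 hfw
  rw [add_sub_cancel_left, t0b_det2_smul, t0b_det2_evec] at hdet₁
  have hd1 : dotR (deriv c s₁) (nvec θ') = 0 := by
    rcases mul_eq_zero.1 hdet₁ with h0 | h0
    · exact absurd h0 ha'.ne'
    · linarith
  have hk' : dotR (c s₁) (nvec θ') = pOut h θ θ' := by
    obtain ⟨u, v, hu, hv, huv, e1⟩ := hseg₁
    rw [← e1, t0_pOut_eq, t0_dot_add, t0_dot_smul, t0_dot_smul, t0_dot_add, t0_dot_smul, t0_dot_en]
    have : u = 1 - v := by linarith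
    rw [this]
    simp
    ring
  -- (6) the supporting line of `K` at `c s₁`
  have hcK : ∀ t, c t ∈ K := fun t => hKc.isClosed.frontier_subset (hKf ▸ Set.mem_range_self t)
  have hni : c s₁ ∉ interior K := by
    have : c s₁ ∈ frontier K := hKf ▸ Set.mem_range_self s₁
    exact this.2
  obtain ⟨n, hn, hmax, hdn⟩ := t0_tangent_support K hKs.convex
    (t0b_interior_nonempty c ℓ hreg K hKs hKc.isClosed hKf) c hcK s₁ (hcd s₁) hni
  have hc' := t0_orth_nvec _ _ hd1
  have hμ : dotR (deriv c s₁) (evec θ') ≠ 0 := by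
    intro h0
    rw [h0, zero_smul] at hc'
    exact hreg.2.2.2.2 s₁ hc'
  have hen : dotR (evec θ') n = 0 := by
    rw [hc', t0_dot_smul] at hdn
    rcases mul_eq_zero.1 hdn with h0 | h0
    · exact absurd h0 hμ
    · exact h0
  have hn2 := t0_expand n θ'
  rw [t0_dot_comm n (evec θ'), hen, zero_smul, add_zero] at hn2
  set lam2 := dotR n (nvec θ') with hlam2
  have hlam20 : lam2 ≠ 0 := by
    intro h0
    rw [h0, zero_smul] at hn2
    exact hn hn2
  have h3 : ∀ x : ℝ × ℝ, dotR x n = lam2 * dotR x (nvec θ') := by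
    intro x
    conv_lhs => rw [hn2]
    rw [t0_dot_comm, t0_dot_smul, t0_dot_comm]
  rcases lt_or_gt_of_ne hlam20 with hneg | hpos
  · exfalso
    have a1 := hmax (c s₀) (hcK s₀)
    rw [h3, h3, hk'] at a1
    have a2 : pOut h θ θ' ≤ dotR (c s₀) (nvec θ') := by nlinarith
    have a3 : dotR (γ t - c s₀) (nvec θ') = lam * sin (θ' - θ) := by
      rw [htk, t0_dot_smul, t0_dot_en]
    rw [t0_dot_sub, hy, ← t0_pOut_eq] at a3
    have a4 : 0 < sin (θ' - θ) := sin_pos_of_pos_of_lt_pi (by linarith) (by linarith)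
    have := mul_pos hlam a4
    linarith
  · have hgr : IsGreatest ((fun x => dotR x (nvec θ')) '' Set.range c) (pOut h θ θ') := by
      refine ⟨⟨_, Set.mem_range_self s₁, hk'⟩, ?_⟩
      rintro _ ⟨_, ⟨u, rfl⟩, rfl⟩
      have a1 := hmax (c u) (hcK u)
      rw [h3, h3, hk'] at a1
      exact le_of_mul_le_mul_left a1 hpos
    exact hgr.unique (hG θ')

end Claimed.Agent.R269
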