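/-
Row 269, front end T0 (S0510), LEAF  LF-T0b-Nest :  the leaves of a caustic collar are nested; their support functions.    Sub-captain: helper113.
Uses T0/Conv.lean (statements) and general topology.     Source: P1 02-analytic.tex l.87-98 (the argument below replaces the radial-function sketch of the paper).

SETTING.  `A = U ∩ closure Ω`, `H₀ : Circle × [0,1) ≃ₜ A`, leaf `b` = image of `Circle × {b}`, `Col b` = image of `Circle × [0, b)`;  leaf `0` = `frontier Ω`;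
for `b > 0`: `Kb b` compact strictly convex with `frontier (Kb b) = leaf b ⊆ Ω`.
(1) `t0b_col_preconnected`: `Circle × [0, b)` is preconnected (`Circle` is connected: continuous image of `ℝ` under `Circle.exp`; `Set.Iio b` in the subtype is `OrdConnected`).
(2) `t0b_col_disjoint`: `Col b` is preconnected and does not meet `frontier (Kb b) = leaf b` (`H₀` injective), so by `IsPreconnected.inter_frontier_nonempty` either `Col b ⊆ Kb b` or
    `Col b ∩ Kb b = ∅`.   First case: `frontier Ω ⊆ Kb b`, so `closure Ω ⊆ Kb b` (`t0_chord` for the compact set `closure Ω`, `frontier (closure Ω) ⊆ frontier Ω`, convexity of `Kb b`), hence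
    `Ω ⊆ interior (Kb b)` and the nonempty `leaf b ⊆ Ω` meets `interior (Kb b)`: contradiction with `leaf b = frontier (Kb b)`.
(3) `t0b_outside_preconnected`: `D = closure Ω \ Kb b` is preconnected:  fix `o ∈ Kb b`; for `x ∈ D` the ray `o + t (x - o)`, `t ≥ 1`, stays outside `Kb b` (convexity), it leaves the compact convex set
    `closure Ω` at a point `y ∈ frontier Ω` (last parameter), `segment x y ⊆ D`; `frontier Ω = range γ` is connected and contained in `D` by (2).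
(4) `t0b_outside_subset`: `D ⊆ Col b`:   `Col b = O ∩ closure Ω` with `O` an `IsOpen` set (`H₀` homeomorphism, `A` relatively open), `V := (image of Circle × [0, b])ᶜ` is an `IsOpen` set (compact image);
    `D ⊆ O ∪ V`, `D ∩ O ∩ V = ∅`, `D ∩ O ≠ ∅`; preconnectedness gives `D ∩ V = ∅`.
(5) `t0b_nested`: `b < b'`: `leaf b' ⊆ closure Ω`, disjoint from `Col b` and from `leaf b`, so `leaf b' ⊆ Kb b \ frontier (Kb b) = interior (Kb b)`.
(6) support functions: `t0bG H₀ b θ = sSup` of `x · n_θ` over `leaf b` (compact, nonempty): `IsGreatest`.   For `b > 0` it is also the maximum over `Kb b` (`t0_exists_max`, `t0_max_not_interior`).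
    Strictly decreasing: the maximiser `x` on `leaf b'` is interior to `Kb b` (resp. lies in `Ω`, `b = 0`), so `x + ε n_θ ∈ Kb b` (resp. `closure Ω`).
    Joint continuity: `t0bG H₀ b θ = sSup ((fun z => dotR (H₀ (z, b)) (nvec θ)) '' univ)`, `IsCompact.continuous_sSup` on `Circle`.
-/
import Claimed.Agent.R269.T0.Conv

set_option autoImplicit false

namespace Claimed.Agent.R269

open Real

variable {A : Set (ℝ × ℝ)}

/-- the leaf with parameter `b`. -/
def t0bLeaf (H₀ : Circle × Set.Ico (0 : ℝ) 1 ≃ₜ A) (b : Set.Ico (0 : ℝ) 1) : Set (ℝ × ℝ) :=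
  Subtype.val '' (H₀ '' {x | x.2 = b})

/-- the part of the collar outside the leaf `b`. -/
def t0bCol (H₀ : Circle × Set.Ico (0 : ℝ) 1 ≃ₜ A) (b : Set.Ico (0 : ℝ) 1) : Set (ℝ × ℝ) :=
  Subtype.val '' (H₀ '' {x | x.2 < b})

/-- support function of the leaf `b`. -/
noncomputable def t0bG (H₀ : Circle × Set.Ico (0 : ℝ) 1 ≃ₜ A) (b : Set.Ico (0 : ℝ) 1) (θ : ℝ) : ℝ :=
  sSup ((fun x => dotR x (nvec θ)) '' t0bLeaf H₀ b)

/-- the topological content of `HasCausticCollar`. -/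
structure IsCollar (Ω : Set (ℝ × ℝ)) (H₀ : Circle × Set.Ico (0 : ℝ) 1 ≃ₜ A) (Kb : Set.Ico (0 : ℝ) 1 → Set (ℝ × ℝ)) : Prop where
  isOpen : IsOpen Ω
  bdd : Bornology.IsBounded Ω
  conv : Convex ℝ (closure Ω)
  frontier_conn : IsPreconnected (frontier Ω)
  relOpen : ∃ U : Set (ℝ × ℝ), IsOpen U ∧ A = U ∩ closure Ω
  leaf0 : t0bLeaf H₀ ⟨0, by simp⟩ = frontier Ω
  compact : ∀ b : Set.Ico (0 : ℝ) 1, 0 < (b : ℝ) → IsCompact (Kb b)
  sconv : ∀ b : Set.Ico (0 : ℝ) 1, 0 < (b : ℝ) → StrictConvex ℝ (Kb b)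
  front : ∀ b : Set.Ico (0 : ℝ) 1, 0 < (b : ℝ) → frontier (Kb b) = t0bLeaf H₀ b
  inside : ∀ b : Set.Ico (0 : ℝ) 1, 0 < (b : ℝ) → t0bLeaf H₀ b ⊆ Ω

variable {Ω : Set (ℝ × ℝ)} {H₀ : Circle × Set.Ico (0 : ℝ) 1 ≃ₜ A} {Kb : Set.Ico (0 : ℝ) 1 → Set (ℝ × ℝ)}

theorem t0b_cont (H₀ : Circle × Set.Ico (0 : ℝ) 1 ≃ₜ A) : Continuous fun x => ((H₀ x : A) : ℝ × ℝ) :=
  continuous_subtype_val.comp H₀.continuous

theorem t0b_inj (H₀ : Circle × Set.Ico (0 : ℝ) 1 ≃ₜ A) : Function.Injective fun x => ((H₀ x : A) : ℝ × ℝ) :=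
  Subtype.val_injective.comp H₀.injective

theorem t0b_mem_leaf (H₀ : Circle × Set.Ico (0 : ℝ) 1 ≃ₜ A) (b : Set.Ico (0 : ℝ) 1) (x : ℝ × ℝ) :
    x ∈ t0bLeaf H₀ b ↔ ∃ z : Circle, ((H₀ (z, b) : A) : ℝ × ℝ) = x := by
  constructor
  · rintro ⟨_, ⟨⟨z, b'⟩, hb, rfl⟩, rfl⟩
    have : b' = b := hb
    subst this
    exact ⟨z, rfl⟩
  · rintro ⟨z, rfl⟩
    exact ⟨_, ⟨(z, b), rfl, rfl⟩, rfl⟩

theorem t0b_mem_col (H₀ : Circle × Set.Ico (0 : ℝ) 1 ≃ₜ A) (b : Set.Ico (0 : ℝ) 1) (x : ℝ × ℝ) :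
    x ∈ t0bCol H₀ b ↔ ∃ (z : Circle) (b' : Set.Ico (0 : ℝ) 1), b' < b ∧ ((H₀ (z, b') : A) : ℝ × ℝ) = x := by
  constructor
  · rintro ⟨_, ⟨⟨z, b'⟩, hb, rfl⟩, rfl⟩
    exact ⟨z, b', hb, rfl⟩
  · rintro ⟨z, b', hb, rfl⟩
    exact ⟨_, ⟨(z, b'), hb, rfl⟩, rfl⟩

theorem t0b_leaf_compact (H₀ : Circle × Set.Ico (0 : ℝ) 1 ≃ₜ A) (b : Set.Ico (0 : ℝ) 1) :
    IsCompact (t0bLeaf H₀ b) ∧ (t0bLeaf H₀ b).Nonempty := by
  constructor
  · have h1 : {x : Circle × Set.Ico (0 : ℝ) 1 | x.2 = b} = Set.univ ×ˢ {b} := by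
      ext x
      simp
    have h2 : IsCompact {x : Circle × Set.Ico (0 : ℝ) 1 | x.2 = b} := by
      rw [h1]
      exact isCompact_univ.prod isCompact_singleton
    exact (h2.image H₀.continuous).image continuous_subtype_val
  · exact ⟨_, (t0b_mem_leaf H₀ b _).2 ⟨1, rfl⟩⟩

theorem t0b_leaf_disjoint (H₀ : Circle × Set.Ico (0 : ℝ) 1 ≃ₜ A) (b b' : Set.Ico (0 : ℝ) 1) (h : b ≠ b') :
    Disjoint (t0bLeaf H₀ b) (t0bLeaf H₀ b') := by
  rw [Set.disjoint_left]
  intro x hx hx'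
  obtain ⟨z, rfl⟩ := (t0b_mem_leaf H₀ b _).1 hx
  obtain ⟨z', e⟩ := (t0b_mem_leaf H₀ b' _).1 hx'
  have := t0b_inj H₀ e
  exact h (congrArg Prod.snd this).symm

theorem t0b_leaf_col_disjoint (H₀ : Circle × Set.Ico (0 : ℝ) 1 ≃ₜ A) (b b' : Set.Ico (0 : ℝ) 1) (h : b ≤ b') :
    Disjoint (t0bCol H₀ b) (t0bLeaf H₀ b') := by
  rw [Set.disjoint_left]
  intro x hx hx'
  obtain ⟨z, b'', hb, rfl⟩ := (t0b_mem_col H₀ b _).1 hx
  obtain ⟨z', e⟩ := (t0b_mem_leaf H₀ b' _).1 hx'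
  have := t0b_inj H₀ e
  have e2 : b' = b'' := congrArg Prod.snd this
  rw [← e2] at hb
  exact absurd hb (not_lt.2 h)

theorem t0b_leaf_subset_col (H₀ : Circle × Set.Ico (0 : ℝ) 1 ≃ₜ A) (b b' : Set.Ico (0 : ℝ) 1) (h : b' < b) :
    t0bLeaf H₀ b' ⊆ t0bCol H₀ b := by
  intro x hx
  obtain ⟨z, rfl⟩ := (t0b_mem_leaf H₀ b' _).1 hx
  exact (t0b_mem_col H₀ b _).2 ⟨z, b', h, rfl⟩

theorem t0b_col_preconnected (H₀ : Circle × Set.Ico (0 : ℝ) 1 ≃ₜ A) (b : Set.Ico (0 : ℝ) 1) :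
    IsPreconnected (t0bCol H₀ b) := by
  have h1 : {x : Circle × Set.Ico (0 : ℝ) 1 | x.2 < b} = Set.univ ×ˢ Set.Iio b := by
    ext x
    simp
  have h2 : IsPreconnected (Set.Iio b) := by
    rw [← Topology.IsInducing.subtypeVal.isPreconnected_image]
    have : Subtype.val '' Set.Iio b = Set.Ico (0 : ℝ) b := by
      ext t
      constructor
      · rintro ⟨x, hx, rfl⟩
        exact ⟨x.2.1, hx⟩
      · intro ht
        exact ⟨⟨t, ht.1, ht.2.trans b.2.2⟩, ht.2, rfl⟩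
    rw [this]
    exact isPreconnected_Ico
  have h3 : IsPreconnected {x : Circle × Set.Ico (0 : ℝ) 1 | x.2 < b} := by
    rw [h1]
    exact isPreconnected_univ.prod h2
  exact (h3.image _ H₀.continuous.continuousOn).image _ continuous_subtype_val.continuousOn

theorem t0b_pre_frontier {t s : Set (ℝ × ℝ)} (ht : IsPreconnected t) (hd : Disjoint t (frontier s)) :
    t ⊆ interior s ∨ t ⊆ (closure s)ᶜ := by
  apply IsPreconnected.subset_or_subset isOpen_interior isClosed_closure.isOpen_compl _ _ ht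
  · rw [Set.disjoint_left]
    intro x hx hx'
    exact hx' (subset_closure (interior_subset hx))
  · intro x hx
    by_cases h1 : x ∈ interior s
    · exact Or.inl h1
    · by_cases h2 : x ∈ closure s
      · exact absurd ⟨h2, h1⟩ (Set.disjoint_left.1 hd hx)
      · exact Or.inr h2

theorem IsCollar.zero_lt (b : Set.Ico (0 : ℝ) 1) (hb : 0 < (b : ℝ)) : (⟨0, by simp⟩ : Set.Ico (0 : ℝ) 1) < b := hb

theorem IsCollar.frontier_subset_col (C : IsCollar Ω H₀ Kb) (b : Set.Ico (0 : ℝ) 1) (hb : 0 < (b : ℝ)) :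
    frontier Ω ⊆ t0bCol H₀ b := by
  rw [← C.leaf0]
  exact t0b_leaf_subset_col H₀ b _ hb

theorem IsCollar.compact_closure (C : IsCollar Ω H₀ Kb) : IsCompact (closure Ω) :=
  Metric.isCompact_of_isClosed_isBounded isClosed_closure C.bdd.closure

theorem t0b_col_disjoint (C : IsCollar Ω H₀ Kb) (b : Set.Ico (0 : ℝ) 1) (hb : 0 < (b : ℝ)) :
    Disjoint (t0bCol H₀ b) (Kb b) := by
  have hd : Disjoint (t0bCol H₀ b) (frontier (Kb b)) := by
    rw [C.front b hb]
    exact t0b_leaf_col_disjoint H₀ b b le_rfl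
  rcases t0b_pre_frontier (t0b_col_preconnected H₀ b) hd with h | h
  · exfalso
    have h1 : frontier Ω ⊆ Kb b := ((C.frontier_subset_col b hb).trans h).trans interior_subset
    have h2 : closure Ω ⊆ Kb b := by
      intro x hx
      obtain ⟨y, hy, z, hz, hxyz⟩ := t0_chord (closure Ω) C.compact_closure x hx
      exact (C.sconv b hb).convex.segment_subset (h1 (frontier_closure_subset hy)) (h1 (frontier_closure_subset hz)) hxyz
    have h3 : Ω ⊆ interior (Kb b) := interior_maximal (subset_closure.trans h2) C.isOpen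
    obtain ⟨x, hx⟩ := (t0b_leaf_compact H₀ b).2
    have h4 := h3 (C.inside b hb hx)
    rw [← C.front b hb] at hx
    exact hx.2 h4
  · rw [Set.disjoint_left]
    intro x hx hx'
    exact h hx (subset_closure hx')

theorem t0_nvec_ne_zero' (θ : ℝ) : nvec θ ≠ 0 := by
  intro h
  have h1 : cos θ = 0 := by simpa [nvec] using congrArg Prod.fst h
  have h2 : sin θ = 0 := by simpa [nvec] using congrArg Prod.snd h
  have := sin_sq_add_cos_sq θ
  rw [h1, h2] at this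
  norm_num at this

theorem IsCollar.frontier_subset_outside (C : IsCollar Ω H₀ Kb) (b : Set.Ico (0 : ℝ) 1) (hb : 0 < (b : ℝ)) :
    frontier Ω ⊆ closure Ω \ Kb b := fun x hx =>
  ⟨frontier_subset_closure hx, fun h => Set.disjoint_left.1 (t0b_col_disjoint C b hb) (C.frontier_subset_col b hb hx) h⟩

/-- every point outside `Kb b` is joined to the boundary inside `closure Ω \ Kb b`. -/
theorem t0b_outside_join (C : IsCollar Ω H₀ Kb) (b : Set.Ico (0 : ℝ) 1) (hb : 0 < (b : ℝ)) (x : ℝ × ℝ)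
    (hx : x ∈ closure Ω \ Kb b) :
    ∃ t : Set (ℝ × ℝ), t ⊆ closure Ω \ Kb b ∧ IsPreconnected t ∧ x ∈ t ∧ ∃ y ∈ t, y ∈ frontier Ω := by
  by_cases hxΩ : x ∈ Ω
  · obtain ⟨o, ho⟩ := (t0b_leaf_compact H₀ b).2
    rw [← C.front b hb] at ho
    have hoK : o ∈ Kb b := (C.compact b hb).isClosed.frontier_subset ho
    have hv : x - o ≠ 0 := by
      intro h0
      rw [sub_eq_zero] at h0
      exact hx.2 (h0 ▸ hoK)
    obtain ⟨t, ht, hy, hin⟩ := t0_exit Ω C.isOpen C.bdd x (x - o) hxΩ hv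
    refine ⟨segment ℝ x (x + t • (x - o)), ?_, (convex_segment _ _).isPreconnected, left_mem_segment _ _ _,
      _, right_mem_segment _ _ _, hy⟩
    intro w hw
    refine ⟨C.conv.segment_subset hx.1 (frontier_subset_closure hy) hw, fun hwK => ?_⟩
    obtain ⟨a, c, ha, hc, hac, rfl⟩ := hw
    -- `w = o + (1 + c t) (x - o)`, so `x` lies between `o` and `w`
    apply hx.2
    have hs : 0 < 1 + c * t := by positivity
    have : x = (c * t / (1 + c * t)) • o + (1 / (1 + c * t)) • (a • x + c • (x + t • (x - o))) := by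
      have ha' : a = 1 - c := by linarith
      subst ha'
      ext
      · simp only [Prod.fst_add, Prod.smul_fst, smul_eq_mul, Prod.fst_sub]
        field_simp
        ring
      · simp only [Prod.snd_add, Prod.smul_snd, smul_eq_mul, Prod.snd_sub]
        field_simp
        ring
    rw [this]
    exact (C.sconv b hb).convex hoK hwK (by positivity) (by positivity) (by field_simp; ring)
  · have hxf : x ∈ frontier Ω := by
      rw [frontier, C.isOpen.interior_eq]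
      exact ⟨hx.1, hxΩ⟩
    exact ⟨{x}, by simpa using hx, isPreconnected_singleton, rfl, x, rfl, hxf⟩

theorem t0b_outside_preconnected (C : IsCollar Ω H₀ Kb) (b : Set.Ico (0 : ℝ) 1) (hb : 0 < (b : ℝ)) :
    IsPreconnected (closure Ω \ Kb b) := by
  apply isPreconnected_of_forall_pair
  intro x hx x' hx'
  obtain ⟨t, ht, htc, hxt, y, hyt, hy⟩ := t0b_outside_join C b hb x hx
  obtain ⟨t', ht', htc', hxt', y', hyt', hy'⟩ := t0b_outside_join C b hb x' hx'
  refine ⟨(t ∪ frontier Ω) ∪ t', ?_, Or.inl (Or.inl hxt), Or.inr hxt', ?_⟩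
  · exact Set.union_subset (Set.union_subset ht (C.frontier_subset_outside b hb)) ht'
  · exact (htc.union y hyt hy C.frontier_conn).union y' (Or.inr hy') hyt' htc'

theorem t0b_outside_subset (C : IsCollar Ω H₀ Kb) (b : Set.Ico (0 : ℝ) 1) (hb : 0 < (b : ℝ)) :
    closure Ω \ Kb b ⊆ t0bCol H₀ b := by
  obtain ⟨U, hU, hA⟩ := C.relOpen
  -- `Col b` is relatively open
  have hopen : IsOpen (H₀ '' {x | x.2 < b}) := by
    apply H₀.isOpenMap
    exact isOpen_lt continuous_snd continuous_const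
  obtain ⟨O', hO', hOe⟩ := isOpen_induced_iff.1 hopen
  have hcol : t0bCol H₀ b = (O' ∩ U) ∩ closure Ω := by
    ext x
    constructor
    · rintro ⟨a, ha, rfl⟩
      rw [← hOe] at ha
      have h2 : (a : ℝ × ℝ) ∈ U ∩ closure Ω := hA ▸ a.2
      exact ⟨⟨ha, h2.1⟩, h2.2⟩
    · rintro ⟨⟨h1, h2⟩, h3⟩
      have hxA : x ∈ A := by rw [hA]; exact ⟨h2, h3⟩
      refine ⟨⟨x, hxA⟩, ?_, rfl⟩
      rw [← hOe]
      exact h1
  -- the compact set `E`
  set E : Set (ℝ × ℝ) := Subtype.val '' (H₀ '' {x | x.2 ≤ b}) with hE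
  have hEc : IsCompact E := by
    have h1 : {x : Circle × Set.Ico (0 : ℝ) 1 | x.2 ≤ b} = Set.univ ×ˢ Set.Iic b := by
      ext x
      simp
    have h2 : IsCompact (Set.Iic b) := by
      rw [Subtype.isCompact_iff]
      have : Subtype.val '' Set.Iic b = Set.Icc (0 : ℝ) b := by
        ext t
        constructor
        · rintro ⟨x, hx, rfl⟩
          exact ⟨x.2.1, hx⟩
        · intro ht
          exact ⟨⟨t, ht.1, lt_of_le_of_lt ht.2 b.2.2⟩, ht.2, rfl⟩
      rw [this]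
      exact isCompact_Icc
    have h3 : IsCompact {x : Circle × Set.Ico (0 : ℝ) 1 | x.2 ≤ b} := by
      rw [h1]
      exact isCompact_univ.prod h2
    exact (h3.image H₀.continuous).image continuous_subtype_val
  have hcolE : t0bCol H₀ b ⊆ E := by
    rintro _ ⟨_, ⟨x, hx, rfl⟩, rfl⟩
    exact ⟨_, ⟨x, le_of_lt (show x.2 < b from hx), rfl⟩, rfl⟩
  have hpre := t0b_outside_preconnected C b hb
  have hcover : closure Ω \ Kb b ⊆ (O' ∩ U) ∪ Eᶜ := by
    intro x hx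
    by_cases hxE : x ∈ E
    · left
      obtain ⟨_, ⟨⟨z, b'⟩, hb', rfl⟩, rfl⟩ := hxE
      rcases lt_or_eq_of_le (show b' ≤ b from hb') with h | h
      · have : ((H₀ (z, b') : A) : ℝ × ℝ) ∈ t0bCol H₀ b := (t0b_mem_col H₀ b _).2 ⟨z, b', h, rfl⟩
        rw [hcol] at this
        exact this.1
      · exfalso
        have h' : b' = b := h
        subst h'
        have : ((H₀ (z, b') : A) : ℝ × ℝ) ∈ t0bLeaf H₀ b' := (t0b_mem_leaf H₀ b' _).2 ⟨z, rfl⟩
        rw [← C.front b' hb] at this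
        exact hx.2 ((C.compact b' hb).isClosed.frontier_subset this)
    · exact Or.inr hxE
  have hne1 : ((closure Ω \ Kb b) ∩ (O' ∩ U)).Nonempty := by
    obtain ⟨x, hx⟩ := (t0b_leaf_compact H₀ ⟨0, by simp⟩).2
    rw [C.leaf0] at hx
    have h1 := C.frontier_subset_col b hb hx
    rw [hcol] at h1
    exact ⟨x, C.frontier_subset_outside b hb hx, h1.1⟩
  intro x hx
  by_contra hxc
  have hxV : x ∈ Eᶜ := by
    rcases hcover hx with h | h
    · exact absurd (hcol ▸ ⟨h, hx.1⟩ : x ∈ t0bCol H₀ b) hxc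
    · exact h
  obtain ⟨w, hw, hw1, hw2⟩ := hpre _ _ (hO'.inter hU) hEc.isClosed.isOpen_compl hcover hne1 ⟨x, hx, hxV⟩
  exact hw2 (hcolE (hcol ▸ ⟨hw1, hw.1⟩))

theorem t0b_nested (C : IsCollar Ω H₀ Kb) (b b' : Set.Ico (0 : ℝ) 1) (hb : 0 < (b : ℝ)) (hbb : b < b') :
    t0bLeaf H₀ b' ⊆ interior (Kb b) := by
  intro x hx
  have hb' : 0 < (b' : ℝ) := lt_trans hb hbb
  have h1 : x ∈ closure Ω := subset_closure (C.inside b' hb' hx)
  have h2 : x ∉ t0bCol H₀ b := fun h => Set.disjoint_left.1 (t0b_leaf_col_disjoint H₀ b b' hbb.le) h hx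
  have h3 : x ∈ Kb b := by
    by_contra h
    exact h2 (t0b_outside_subset C b hb ⟨h1, h⟩)
  have h4 : x ∉ frontier (Kb b) := by
    rw [C.front b hb]
    exact fun h => Set.disjoint_left.1 (t0b_leaf_disjoint H₀ b b' hbb.ne) h hx
  by_contra h5
  apply h4
  rw [(C.compact b hb).isClosed.frontier_eq]
  exact ⟨h3, h5⟩

theorem t0b_G_isGreatest (H₀ : Circle × Set.Ico (0 : ℝ) 1 ≃ₜ A) (b : Set.Ico (0 : ℝ) 1) (θ : ℝ) :
    IsGreatest ((fun x => dotR x (nvec θ)) '' t0bLeaf H₀ b) (t0bG H₀ b θ) := by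
  obtain ⟨h1, h2⟩ := t0b_leaf_compact H₀ b
  exact (h1.image (t0_continuous_dot _)).isGreatest_sSup (h2.image _)

theorem t0b_G_anti (C : IsCollar Ω H₀ Kb) (θ : ℝ) : StrictAnti fun b => t0bG H₀ b θ := by
  intro b b' hbb
  have hb' : 0 < (b' : ℝ) := lt_of_le_of_lt b.2.1 hbb
  obtain ⟨⟨x, hx, e⟩, -⟩ := t0b_G_isGreatest H₀ b' θ
  simp only at e
  -- an open bounded set containing `x` whose frontier is contained in the leaf `b`
  obtain ⟨W, hWo, hWb, hxW, hWf⟩ : ∃ W : Set (ℝ × ℝ), IsOpen W ∧ Bornology.IsBounded W ∧ x ∈ W ∧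
      frontier W ⊆ t0bLeaf H₀ b := by
    rcases b.2.1.lt_or_eq with hb | hb
    · refine ⟨interior (Kb b), isOpen_interior, (C.compact b hb).isBounded.subset interior_subset,
        t0b_nested C b b' hb hbb hx, ?_⟩
      rw [← C.front b hb]
      exact frontier_interior_subset
    · refine ⟨Ω, C.isOpen, C.bdd, C.inside b' hb' hx, ?_⟩
      have : b = ⟨0, by simp⟩ := Subtype.ext hb.symm
      rw [this, C.leaf0]
  obtain ⟨t, ht, hy, -⟩ := t0_exit W hWo hWb x (nvec θ) hxW (t0_nvec_ne_zero' θ)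
  have h1 := (t0b_G_isGreatest H₀ b θ).2 ⟨_, hWf hy, rfl⟩
  simp only at h1
  have h2 : dotR (x + t • nvec θ) (nvec θ) = dotR x (nvec θ) + t := by
    have := sin_sq_add_cos_sq θ
    simp only [dotR, nvec, Prod.fst_add, Prod.snd_add, Prod.smul_fst, Prod.smul_snd, smul_eq_mul]
    linear_combination t * this
  show t0bG H₀ b' θ < t0bG H₀ b θ
  rw [← e]
  linarith

theorem t0b_G_continuous (H₀ : Circle × Set.Ico (0 : ℝ) 1 ≃ₜ A) :
    Continuous fun x : Set.Ico (0 : ℝ) 1 × ℝ => t0bG H₀ x.1 x.2 := by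
  have h1 : ∀ x : Set.Ico (0 : ℝ) 1 × ℝ, t0bG H₀ x.1 x.2 =
      sSup ((fun (x : Set.Ico (0 : ℝ) 1 × ℝ) (z : Circle) => dotR ((H₀ (z, x.1) : A) : ℝ × ℝ) (nvec x.2)) x '' Set.univ) := by
    intro x
    unfold t0bG
    congr 1
    ext r
    constructor
    · rintro ⟨y, hy, rfl⟩
      obtain ⟨z, rfl⟩ := (t0b_mem_leaf H₀ x.1 _).1 hy
      exact ⟨z, Set.mem_univ _, rfl⟩
    · rintro ⟨z, -, rfl⟩
      exact ⟨_, (t0b_mem_leaf H₀ x.1 _).2 ⟨z, rfl⟩, rfl⟩
  simp_rw [h1]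
  apply isCompact_univ.continuous_sSup
  have c1 := t0b_cont H₀
  have c2 : Continuous fun p : (Set.Ico (0 : ℝ) 1 × ℝ) × Circle => ((H₀ (p.2, p.1.1) : A) : ℝ × ℝ) :=
    c1.comp (continuous_snd.prodMk (continuous_fst.comp continuous_fst))
  have c3 : Continuous fun p : (Set.Ico (0 : ℝ) 1 × ℝ) × Circle => p.1.2 := continuous_snd.comp continuous_fst
  show Continuous fun p : (Set.Ico (0 : ℝ) 1 × ℝ) × Circle => dotR ((H₀ (p.2, p.1.1) : A) : ℝ × ℝ) (nvec p.1.2)
  simp only [dotR, nvec]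
  fun_prop

theorem t0b_G_periodic (H₀ : Circle × Set.Ico (0 : ℝ) 1 ≃ₜ A) (b : Set.Ico (0 : ℝ) 1) :
    Function.Periodic (t0bG H₀ b) (2 * π) := by
  intro θ
  unfold t0bG
  have : nvec (θ + 2 * π) = nvec θ := by simp [nvec]
  rw [this]

end Claimed.Agent.R269
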