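/-
Row 269, front ends, LEAF  LF-T0c :  `IsPhaseCollar h g ⟹ GlancingRigid h`.        Sub-captain: helper113.
Uses only T0/Defs.lean, T0/Model.lean, T0/Next.lean (sorry-free).   Source: P1 02-analytic.tex l.73-110, P2 geometry.tex l.371-429.

PLAN.  Fix `κ = π/2`.
(1) `t0c_pos_min`: a continuous `2π`-periodic positive function is bounded below by a positive constant (compactness of `[0, 2π]`).
(2) `c := min_θ (h θ - pIn h θ (θ + κ)) > 0` (`t0_pIn_lt`).   `t0c_small_b`: there is `b₁ ∈ (0,1)` with `h θ - g b₁ θ < c` for all `θ`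
    (continuity of `g` at the compact set `{0} × [0, 2π]`, `g 0 = h`: generalized tube lemma / sequences; periodicity).  By `anti` the same
    holds for all `b ≤ b₁`.
(3) For `0 < b ≤ b₁` and every `θ`: `pIn h θ (θ + κ) < g b θ < h θ = pIn h θ θ`, so (IVT, `t0_pIn_strictAntiOn`) there is a unique
    `Fb θ ∈ (θ, θ + κ)` with `pIn h θ (Fb θ) = g b θ`:  `t0c_F_spec`.   `Fb` is continuous (`t0_cont_of_anti`), injective (if `Fb θ₁ = Fb θ₂ = θ'`
    then by `inv` `pOut h θ₁ θ' = g b θ' = pOut h θ₂ θ'`, `t0_pOut_inj`), hence strictly monotone (`Continuous.strictMono_of_inj`), and increasing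
    because `θ < Fb θ < θ + κ`.    `b < b'` implies `Fb θ < Fb' θ` (`anti`, `t0_pIn_strictAntiOn`).
(4) `ε := min_θ (h θ - g b₁ θ) > 0`;  `η ≤ κ` with `h θ - pIn h θ θ' < ε` for `θ ≤ θ' < θ + η` (uniform continuity of `pIn` on a compact set +
    periodicity `t0_pIn_shift`).
(5) A chain with steps in `(0, η)` and `q ≥ 1`: `p₀ = pIn h (θ 0) (θ 1) ∈ (g b₁ (θ 0), h (θ 0))`, so `p₀ = g b (θ 0)` for some `b ∈ (0, b₁)` (IVT in `b`,
    `cont`).  Induction (`inv` + `stationary`): `pIn h (θ j) (θ (j+1)) = g b (θ j)` for `j < q`, `pOut h (θ j) (θ (j+1)) = g b (θ (j+1))`,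
    i.e. `θ (j+1) = Fb (θ j)`.
(6) closes: `pOut h (θ q) (θ (q+1)) = g b (θ (q+1)) = g b (θ 0 + 2π l) = g b (θ 0) = pIn h (θ 0) (θ 1)`.
(7) unique: leaves `b, b'`.  `b = b'`: equal by induction.  `b < b'`: `θ j < θ' j` for `1 ≤ j ≤ q` by induction
    (`θ (j+1) = Fb (θ j) ≤ Fb (θ' j) < Fb' (θ' j)`), contradiction at `j = q`.
-/
import Claimed.Agent.R269.T0.Next

set_option autoImplicit false

namespace Claimed.Agent.R269

open Real

theorem t0c_pos_min (f : ℝ → ℝ) (hf : Continuous f) (hp : Function.Periodic f (2 * π)) (h0 : ∀ x, 0 < f x) :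
    ∃ c : ℝ, 0 < c ∧ ∀ x, c ≤ f x := by
  have hπ : (0 : ℝ) < 2 * π := by positivity
  obtain ⟨x₀, -, hmin⟩ := isCompact_Icc.exists_isMinOn (Set.nonempty_Icc.2 hπ.le) hf.continuousOn
  refine ⟨f x₀, h0 x₀, fun x => ?_⟩
  obtain ⟨y, hy, e⟩ := hp.exists_mem_Ico₀ hπ x
  rw [e]
  exact hmin ⟨hy.1, hy.2.le⟩

/-- tube lemma for a family of periodic functions. -/
theorem t0c_tube (S : Set ℝ) (Φ : ℝ → ℝ → ℝ) (c : ℝ)
    (hc : ContinuousOn (fun x : ℝ × ℝ => Φ x.1 x.2) (S ×ˢ Set.univ)) (h0S : (0 : ℝ) ∈ S)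
    (hp : ∀ b ∈ S, Function.Periodic (Φ b) (2 * π)) (h0 : ∀ θ, Φ 0 θ < c) :
    ∃ δ : ℝ, 0 < δ ∧ ∀ b ∈ S, |b| < δ → ∀ θ, Φ b θ < c := by
  have hπ : (0 : ℝ) < 2 * π := by positivity
  obtain ⟨O, hO, hOe⟩ := continuousOn_iff'.1 hc (Set.Iio c) isOpen_Iio
  have hsub : ({0} : Set ℝ) ×ˢ Set.Icc 0 (2 * π) ⊆ O := by
    rintro ⟨b, θ⟩ ⟨hb, -⟩
    have hb0 : b = 0 := hb
    subst hb0
    have : ((0 : ℝ), θ) ∈ (fun x : ℝ × ℝ => Φ x.1 x.2) ⁻¹' Set.Iio c ∩ S ×ˢ Set.univ := ⟨h0 θ, h0S, Set.mem_univ _⟩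
    rw [hOe] at this
    exact this.1
  obtain ⟨u, v, hu, -, hu0, hv, huv⟩ := generalized_tube_lemma isCompact_singleton isCompact_Icc hO hsub
  obtain ⟨δ, hδ, hball⟩ := Metric.isOpen_iff.1 hu 0 (hu0 rfl)
  refine ⟨δ, hδ, fun b hb hbδ θ => ?_⟩
  obtain ⟨y, hy, e⟩ := (hp b hb).exists_mem_Ico₀ hπ θ
  rw [e]
  have h1 : (b, y) ∈ O := huv ⟨hball (by simpa using hbδ), hv ⟨hy.1, hy.2.le⟩⟩
  have h2 : (b, y) ∈ O ∩ S ×ˢ Set.univ := ⟨h1, hb, Set.mem_univ _⟩
  rw [← hOe] at h2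
  exact h2.1

theorem t0c_small_b {h : ℝ → ℝ} {g : ℝ → ℝ → ℝ} (hs : IsSupport h) (hg : IsPhaseCollar h g) (c : ℝ) (hc : 0 < c) :
    ∃ b₁ : ℝ, 0 < b₁ ∧ b₁ < 1 ∧ ∀ b θ, 0 ≤ b → b ≤ b₁ → h θ - g b θ < c := by
  obtain ⟨δ, hδ, H⟩ := t0c_tube (Set.Ico 0 1) (fun b θ => h θ - g b θ) c
    ((hs.continuous.comp continuous_snd).continuousOn.sub hg.cont) (by simp)
    (fun b hb θ => by simp only [hs.periodic θ, hg.periodic b hb θ]) (fun θ => by simp [hg.zero, hc])
  refine ⟨min (δ / 2) (1 / 2), by positivity, lt_of_le_of_lt (min_le_right _ _) (by norm_num), fun b θ hb0 hb1 => ?_⟩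
  have h1 : b ≤ δ / 2 := hb1.trans (min_le_left _ _)
  have h2 : b ≤ 1 / 2 := hb1.trans (min_le_right _ _)
  exact H b ⟨hb0, by linarith⟩ (by rw [abs_of_nonneg hb0]; linarith) θ

theorem t0c_small_step {h : ℝ → ℝ} (hs : IsSupport h) (ε : ℝ) (hε : 0 < ε) :
    ∃ η : ℝ, 0 < η ∧ ∀ θ θ', θ ≤ θ' → θ' < θ + η → h θ - ε < pIn h θ θ' := by
  have hcont : Continuous fun x : ℝ × ℝ => h x.2 - pIn h x.2 (x.2 + x.1) :=
    (hs.continuous.comp continuous_snd).sub
      ((t0_continuous_pIn hs).comp (continuous_snd.prodMk (continuous_snd.add continuous_fst)))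
  obtain ⟨δ, hδ, H⟩ := t0c_tube Set.univ (fun s θ => h θ - pIn h θ (θ + s)) ε hcont.continuousOn (Set.mem_univ _)
    (fun s _ θ => by
      simp only [hs.periodic θ]
      have := t0_pIn_shift hs θ (θ + s)
      have e : θ + 2 * π + s = θ + s + 2 * π := by ring
      rw [e, this]) (fun θ => by simp [t0_pIn_self, hε])
  refine ⟨δ, hδ, fun θ θ' h1 h2 => ?_⟩
  have := H (θ' - θ) (Set.mem_univ _) (by rw [abs_of_nonneg (by linarith)]; linarith) θ
  simp only [add_sub_cancel] at this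
  linarith

theorem IsPhaseCollar.cont_b {h : ℝ → ℝ} {g : ℝ → ℝ → ℝ} (hg : IsPhaseCollar h g) (θ : ℝ) :
    ContinuousOn (fun b => g b θ) (Set.Ico 0 1) := by
  have h1 : ContinuousOn (fun b : ℝ => ((b, θ) : ℝ × ℝ)) (Set.Ico 0 1) := by fun_prop
  exact hg.cont.comp h1 fun b hb => ⟨hb, Set.mem_univ _⟩

theorem IsPhaseCollar.cont_θ {h : ℝ → ℝ} {g : ℝ → ℝ → ℝ} (hg : IsPhaseCollar h g) (b : ℝ) (hb : b ∈ Set.Ico (0 : ℝ) 1) :
    Continuous (g b) := by
  have h1 : Continuous (fun θ : ℝ => ((b, θ) : ℝ × ℝ)) := by fun_prop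
  rw [← continuousOn_univ]
  exact hg.cont.comp h1.continuousOn fun θ _ => ⟨hb, Set.mem_univ _⟩

/-- the leaf through a glancing line. -/
theorem t0c_leaf {h : ℝ → ℝ} {g : ℝ → ℝ → ℝ} (hg : IsPhaseCollar h g) (b₁ θ p : ℝ) (h0 : 0 < b₁) (h1 : b₁ < 1)
    (hp1 : g b₁ θ < p) (hp2 : p < h θ) : ∃ b, 0 < b ∧ b < b₁ ∧ g b θ = p := by
  have hc : ContinuousOn (fun b => g b θ) (Set.Icc 0 b₁) :=
    (hg.cont_b θ).mono fun b hb => ⟨hb.1, lt_of_le_of_lt hb.2 h1⟩
  have hmem : p ∈ Set.Icc (g b₁ θ) (g 0 θ) := ⟨hp1.le, by rw [hg.zero]; exact hp2.le⟩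
  obtain ⟨b, hb, e⟩ := intermediate_value_Icc' h0.le hc hmem
  simp only at e
  refine ⟨b, lt_of_le_of_ne hb.1 ?_, lt_of_le_of_ne hb.2 ?_, e⟩
  · rintro rfl
    rw [hg.zero] at e
    exact hp2.ne' e
  · rintro rfl
    exact hp1.ne e

/-- the induced lifts `F_b` on the leaves close to the boundary. -/
theorem t0c_F {h : ℝ → ℝ} {g : ℝ → ℝ → ℝ} (hs : IsSupport h) (hg : IsPhaseCollar h g) :
    ∃ (b₁ : ℝ) (F : ℝ → ℝ → ℝ), 0 < b₁ ∧ b₁ < 1 ∧
      (∀ b θ, 0 < b → b ≤ b₁ → θ < F b θ ∧ F b θ < θ + π / 2 ∧ pIn h θ (F b θ) = g b θ) ∧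
      (∀ b, 0 < b → b ≤ b₁ → StrictMono (F b)) ∧
      (∀ b b' θ, 0 < b → b < b' → b' ≤ b₁ → F b θ < F b' θ) := by
  have hπ := pi_pos
  have hcont : Continuous fun θ : ℝ => h θ - pIn h θ (θ + π / 2) :=
    hs.continuous.sub ((t0_continuous_pIn hs).comp (continuous_id.prodMk (continuous_id.add continuous_const)))
  obtain ⟨c, hc, hcmin⟩ := t0c_pos_min (fun θ => h θ - pIn h θ (θ + π / 2)) hcont
    (fun θ => by
      simp only [hs.periodic θ]
      have := t0_pIn_shift hs θ (θ + π / 2)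
      have e : θ + 2 * π + π / 2 = θ + π / 2 + 2 * π := by ring
      rw [e, this])
    (fun θ => by
      have := t0_pIn_lt hs (θ := θ) (θ' := θ + π / 2) (by linarith) (by linarith)
      linarith)
  obtain ⟨b₁, hb0, hb1, hsmall⟩ := t0c_small_b hs hg c hc
  have hex : ∀ b θ, 0 < b → b ≤ b₁ → ∃ x, θ < x ∧ x < θ + π / 2 ∧ pIn h θ x = g b θ := by
    intro b θ h0 h1
    have hlt : g b θ < h θ := by
      have := hg.anti θ (a := 0) (b := b) (by simp) ⟨h0.le, by linarith⟩ h0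
      simpa [hg.zero] using this
    have hgt : pIn h θ (θ + π / 2) < g b θ := by
      have a1 := hcmin θ
      have a2 := hsmall b θ h0.le h1
      linarith
    have hc1 : ContinuousOn (fun x => pIn h θ x) (Set.Icc θ (θ + π / 2)) :=
      ((t0_continuous_pIn hs).comp (continuous_const.prodMk continuous_id)).continuousOn
    have hmem : g b θ ∈ Set.Icc (pIn h θ (θ + π / 2)) (pIn h θ θ) := ⟨hgt.le, by rw [t0_pIn_self]; exact hlt.le⟩
    obtain ⟨x, hx, e⟩ := intermediate_value_Icc' (by linarith : θ ≤ θ + π / 2) hc1 hmem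
    simp only at e
    refine ⟨x, lt_of_le_of_ne hx.1 ?_, lt_of_le_of_ne hx.2 ?_, e⟩
    · rintro rfl
      rw [t0_pIn_self] at e
      exact hlt.ne' e
    · rintro rfl
      exact hgt.ne e
  classical
  set F : ℝ → ℝ → ℝ := fun b θ => if hb : 0 < b ∧ b ≤ b₁ then (hex b θ hb.1 hb.2).choose else θ with hF
  have hFspec : ∀ b θ, 0 < b → b ≤ b₁ → θ < F b θ ∧ F b θ < θ + π / 2 ∧ pIn h θ (F b θ) = g b θ := by
    intro b θ h0 h1
    have : F b θ = (hex b θ h0 h1).choose := by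
      simp only [hF]
      rw [dif_pos ⟨h0, h1⟩]
    rw [this]
    exact (hex b θ h0 h1).choose_spec
  refine ⟨b₁, F, hb0, hb1, hFspec, fun b h0 h1 => ?_, fun b b' θ h0 hbb h1 => ?_⟩
  · have hbI : b ∈ Set.Ico (0 : ℝ) 1 := ⟨h0.le, by linarith⟩
    have hbI' : b ∈ Set.Ioo (0 : ℝ) 1 := ⟨h0, by linarith⟩
    have hFc : Continuous (F b) := by
      rw [continuous_iff_continuousAt]
      intro θ₀
      rw [← continuousWithinAt_univ]
      apply t0_cont_of_anti (fun θ t => pIn h θ t - g b θ) (fun t => ?_) (F b) (fun θ => θ) (fun θ => θ + π / 2)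
        Set.univ θ₀ (Set.mem_univ _) continuous_id.continuousWithinAt
        (continuous_id.add continuous_const).continuousWithinAt
      · intro θ _
        have := (t0_pIn_strictAntiOn hs θ).mono (Set.Icc_subset_Icc_right (by linarith : θ + π / 2 ≤ θ + 2 * π))
        intro x hx y hy hxy
        have := this hx hy hxy
        simp only at this ⊢
        linarith
      · intro θ _
        obtain ⟨a1, a2, a3⟩ := hFspec b θ h0 h1
        exact ⟨a1, a2, by simp only [a3, sub_self]⟩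
      · exact ((t0_continuous_pIn hs).comp (continuous_id.prodMk continuous_const)).sub (hg.cont_θ b hbI)
    have hinj : Function.Injective (F b) := by
      intro θ₁ θ₂ e
      obtain ⟨a1, a2, a3⟩ := hFspec b θ₁ h0 h1
      obtain ⟨c1, c2, c3⟩ := hFspec b θ₂ h0 h1
      have d1 := hg.inv b hbI' θ₁ (F b θ₁) a1 (by linarith) a3
      have d2 := hg.inv b hbI' θ₂ (F b θ₂) c1 (by linarith) c3
      rw [← e] at d2 c1 c2
      exact t0_pOut_inj hs a1.le (by linarith) c1.le (by linarith) (d1.trans d2.symm)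
    rcases hFc.strictMono_of_inj hinj with hm | ha
    · exact hm
    · exfalso
      obtain ⟨a1, a2, -⟩ := hFspec b 0 h0 h1
      obtain ⟨c1, c2, -⟩ := hFspec b (0 + π / 2) h0 h1
      have := ha (by linarith : (0 : ℝ) < 0 + π / 2)
      linarith
  · obtain ⟨a1, a2, a3⟩ := hFspec b θ h0 (by linarith)
    obtain ⟨c1, c2, c3⟩ := hFspec b' θ (by linarith) h1
    have hlt : g b' θ < g b θ := hg.anti θ ⟨h0.le, by linarith⟩ ⟨by linarith, by linarith⟩ hbb
    rw [← a3, ← c3] at hlt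
    exact (StrictAntiOn.lt_iff_gt (t0_pIn_strictAntiOn hs θ) ⟨c1.le, by linarith⟩ ⟨a1.le, by linarith⟩).1 hlt

/-- **T0c.** -/
theorem t0c_rigid {h : ℝ → ℝ} {g : ℝ → ℝ → ℝ} (hs : IsSupport h) (hg : IsPhaseCollar h g) : GlancingRigid h := by
  have hπ := pi_pos
  obtain ⟨b₁, F, hb0, hb1, hFspec, hFmono, hFlt⟩ := t0c_F hs hg
  have hb₁I : b₁ ∈ Set.Ico (0 : ℝ) 1 := ⟨hb0.le, hb1⟩
  obtain ⟨ε, hε, hεmin⟩ := t0c_pos_min (fun θ => h θ - g b₁ θ) (hs.continuous.sub (hg.cont_θ b₁ hb₁I))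
    (fun θ => by simp only [hs.periodic θ, hg.periodic b₁ hb₁I θ])
    (fun θ => by
      have := hg.anti θ (a := 0) (b := b₁) (by simp) hb₁I hb0
      simp only [hg.zero] at this
      linarith)
  obtain ⟨η', hη', hstep⟩ := t0c_small_step hs ε hε
  set η := min η' (π / 2) with hη
  have hηpos : 0 < η := lt_min hη' (by linarith)
  have hη1 : η ≤ η' := min_le_left _ _
  have hη2 : η ≤ π / 2 := min_le_right _ _
  -- every chain lies on one leaf
  have hchain : ∀ (q : ℕ) (θ : ℕ → ℝ), IsChain h η (q + 1) θ → ∃ b, 0 < b ∧ b < b₁ ∧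
      ∀ j, j < q + 1 → pIn h (θ j) (θ (j + 1)) = g b (θ j) ∧ pOut h (θ j) (θ (j + 1)) = g b (θ (j + 1)) ∧
        θ (j + 1) = F b (θ j) := by
    intro q θ C
    have s0 := C.step_pos 0 (Nat.succ_pos q)
    have s1 := C.step_lt 0 (Nat.succ_pos q)
    have p1 : g b₁ (θ 0) < pIn h (θ 0) (θ (0 + 1)) := by
      have a1 := hstep (θ 0) (θ (0 + 1)) s0.le (by linarith)
      have a2 := hεmin (θ 0)
      linarith
    have p2 : pIn h (θ 0) (θ (0 + 1)) < h (θ 0) := t0_pIn_lt hs s0 (by linarith)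
    obtain ⟨b, hb0', hbb, e⟩ := t0c_leaf hg b₁ (θ 0) _ hb0 hb1 p1 p2
    have hbI : b ∈ Set.Ioo (0 : ℝ) 1 := ⟨hb0', by linarith⟩
    have key : ∀ j, j < q + 1 → pIn h (θ j) (θ (j + 1)) = g b (θ j) := by
      intro j
      induction j with
      | zero => intro _; exact e.symm
      | succ j ih =>
        intro hj
        have ih' := ih (by omega)
        have a1 := C.step_pos j (by omega)
        have a2 := C.step_lt j (by omega)
        have a3 := hg.inv b hbI (θ j) (θ (j + 1)) a1 (by linarith) ih'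
        rw [← C.stationary j hj]
        exact a3
    refine ⟨b, hb0', hbb, fun j hj => ?_⟩
    have a1 := C.step_pos j hj
    have a2 := C.step_lt j hj
    refine ⟨key j hj, hg.inv b hbI (θ j) (θ (j + 1)) a1 (by linarith) (key j hj), ?_⟩
    obtain ⟨c1, c2, c3⟩ := hFspec b (θ j) hb0' hbb.le
    exact t0_pIn_inj hs a1.le (by linarith) c1.le (by linarith) ((key j hj).trans c3.symm)
  refine ⟨η, hηpos, ?_, ?_⟩
  · intro q l θ C hend
    obtain ⟨b, hb0', hbb, H⟩ := hchain q θ C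
    have hbI : b ∈ Set.Ico (0 : ℝ) 1 := ⟨hb0'.le, by linarith⟩
    rw [(H q (Nat.lt_succ_self q)).2.1, (H 0 (Nat.succ_pos q)).1, hend]
    have := (hg.periodic b hbI).nat_mul l (θ 0)
    rw [← this]
    congr 1
    ring
  · intro q θ θ' C C' e0 eq
    rcases q with _ | q
    · intro j hj
      have : j = 0 := by omega
      rw [this]
      exact e0
    obtain ⟨b, hb0', hbb, H⟩ := hchain q θ C
    obtain ⟨b', hb0'', hbb', H'⟩ := hchain q θ' C'
    -- strict comparison of two chains on different leaves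
    have cmp : ∀ (c c' : ℝ) (φ φ' : ℕ → ℝ), 0 < c → c < c' → c' < b₁ → φ 0 = φ' 0 →
        (∀ j, j < q + 1 → φ (j + 1) = F c (φ j)) → (∀ j, j < q + 1 → φ' (j + 1) = F c' (φ' j)) →
        ∀ j, j < q + 1 → φ (j + 1) < φ' (j + 1) := by
      intro c c' φ φ' h0 hcc hc' e A A' j
      induction j with
      | zero =>
        intro hj
        rw [A 0 hj, A' 0 hj, e]
        exact hFlt c c' _ h0 hcc hc'.le
      | succ j ih =>
        intro hj
        rw [A (j + 1) hj, A' (j + 1) hj]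
        exact (hFmono c h0 (by linarith) (ih (by omega))).trans (hFlt c c' _ h0 hcc hc'.le)
    rcases lt_trichotomy b b' with hlt | heq | hgt
    · exfalso
      have := cmp b b' θ θ' hb0' hlt hbb' e0 (fun j hj => (H j hj).2.2) (fun j hj => (H' j hj).2.2) q (Nat.lt_succ_self q)
      exact this.ne eq
    · subst heq
      intro j
      induction j with
      | zero => intro _; exact e0
      | succ j ih =>
        intro hj
        rw [(H j (by omega)).2.2, (H' j (by omega)).2.2, ih (by omega)]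
    · exfalso
      have := cmp b' b θ' θ hb0'' hgt hbb e0.symm (fun j hj => (H' j hj).2.2) (fun j hj => (H j hj).2.2) q (Nat.lt_succ_self q)
      exact this.ne eq.symm

end Claimed.Agent.R269
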