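/-
Row 269, front end T0 (S0510):  ASSEMBLY.    Sub-captain: helper113.
`t0b_main` (LEAF LF-T0b-Main): `HasCausticCollar ⟹ IsPhaseCollar`, from T0/Nest.lean and T0/Caustic.lean.
`t0_stage` = `stage_T0` of Stages.lean (proved here from `t0a_main`, `t0b_main`, `t0c_rigid`).

PLAN for `t0b_main`.  Unpack `HasCausticCollar`: `A, H₀, U`, and for `b > 0` (choice) `c b, ℓ b`, `K b` with `IsConvexCaustic Ω γ (c b) (ℓ b)`, `range (c b) = t0bLeaf H₀ b` (definitional).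
`IsCollar Ω H₀ K`: `{x | (x.2 : ℝ) = 0} = {x | x.2 = ⟨0, _⟩}`;  `frontier Ω = range γ` is preconnected (`isPreconnected_range`);  `StrictConvex.convex`.
`g b θ := if hb : b ∈ Set.Ico 0 1 then t0bG H₀ ⟨b, hb⟩ θ else 0`.
* `cont`: `ContinuousOn` on `Ico 0 1 ×ˢ univ` from `t0b_G_continuous` (`continuousOn_iff_continuous_restrict`, the restriction is `t0bG` composed with the obvious continuous map).
* `zero`: `t0bG H₀ 0 θ` is the greatest value of `x · n_θ` on `frontier Ω = range γ`; `h θ` is attained at `bpt h θ = γ t` (`IsBdryParam.surj`, `point`, `t0_bpt_dot_self`) and is an upper bound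
  (`IsBdryParam.le_of_mem_closure`, `frontier_subset_closure`);  `IsGreatest.unique`.
* `periodic`, `anti`: `t0b_G_periodic`, `t0b_G_anti`.          * `inv`: `t0b_caustic_inv` with `G = t0bG H₀ b`, `t0b_G_isGreatest`.
-/
import Claimed.Agent.R269.T0.Nest
import Claimed.Agent.R269.T0.Caustic
import Claimed.Agent.R269.T0.Rigid

set_option autoImplicit false

namespace Claimed.Agent.R269

open Real

theorem t0b_main {Ω : Set (ℝ × ℝ)} {γ : ℝ → ℝ × ℝ} {L : ℝ} {h ν : ℝ → ℝ} {σ : ℝ} (T : IsTable Ω γ L)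
    (P : IsBdryParam Ω γ L h ν σ) (hcollar : Claims.C0438.HasCausticCollar Ω γ) : ∃ g, IsPhaseCollar h g := by
  classical
  obtain ⟨A, H₀, hrel, -, hleaf0, hcau⟩ := hcollar
  choose c ℓ hc hrange using hcau
  have hK : ∀ (b : Set.Ico (0 : ℝ) 1) (hb : 0 < (b : ℝ)), ∃ K : Set (ℝ × ℝ), IsCompact K ∧ StrictConvex ℝ K ∧
      frontier K = Set.range (c b hb) := fun b hb => (hc b hb).2.2.1
  choose K hK1 hK2 hK3 using hK
  set Kb : Set.Ico (0 : ℝ) 1 → Set (ℝ × ℝ) := fun b => if hb : 0 < (b : ℝ) then K b hb else ∅ with hKb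
  have hKb' : ∀ (b : Set.Ico (0 : ℝ) 1) (hb : 0 < (b : ℝ)), Kb b = K b hb := by
    intro b hb
    simp only [hKb]
    rw [dif_pos hb]
  have C : IsCollar Ω H₀ Kb :=
    { isOpen := T.isOpen
      bdd := T.bdd
      conv := T.sconv.convex
      frontier_conn := by
        rw [T.bd]
        exact isPreconnected_range T.smooth.continuous
      relOpen := hrel
      leaf0 := by
        rw [← hleaf0]
        unfold t0bLeaf
        congr 2
        ext x
        exact Subtype.ext_iff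
      compact := fun b hb => by rw [hKb' b hb]; exact hK1 b hb
      sconv := fun b hb => by rw [hKb' b hb]; exact hK2 b hb
      front := fun b hb => by rw [hKb' b hb, hK3 b hb, hrange b hb]; rfl
      inside := fun b hb => by
        have : t0bLeaf H₀ b = Set.range (c b hb) := (hrange b hb).symm
        rw [this]
        exact (hc b hb).2.1 }
  set g : ℝ → ℝ → ℝ := fun b θ => if hb : b ∈ Set.Ico (0 : ℝ) 1 then t0bG H₀ ⟨b, hb⟩ θ else 0 with hg
  have hg' : ∀ (b : ℝ) (hb : b ∈ Set.Ico (0 : ℝ) 1) (θ : ℝ), g b θ = t0bG H₀ ⟨b, hb⟩ θ := by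
    intro b hb θ
    simp only [hg]
    rw [dif_pos hb]
  refine ⟨g, ?_, ?_, ?_, ?_, ?_⟩
  · rw [continuousOn_iff_continuous_domRestrict]
    have h1 : Continuous fun x : ↥(Set.Ico (0 : ℝ) 1 ×ˢ (Set.univ : Set ℝ)) =>
        ((⟨x.1.1, x.2.1⟩ : Set.Ico (0 : ℝ) 1), x.1.2) :=
      ((continuous_fst.comp continuous_subtype_val).subtype_mk _).prodMk (continuous_snd.comp continuous_subtype_val)
    have h2 := (t0b_G_continuous H₀).comp h1
    convert h2 using 1
    funext x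
    exact hg' x.1.1 x.2.1 x.1.2
  · intro θ
    rw [hg' 0 (by simp) θ]
    have h1 := t0b_G_isGreatest H₀ ⟨0, by simp⟩ θ
    rw [C.leaf0] at h1
    have h2 : IsGreatest ((fun x => dotR x (nvec θ)) '' frontier Ω) (h θ) := by
      constructor
      · obtain ⟨t, ht⟩ := P.surj θ
        refine ⟨γ t, T.mem_frontier t, ?_⟩
        simp only
        rw [P.point, ht, t0_bpt_dot_self]
      · rintro _ ⟨x, hx, rfl⟩
        exact P.le_of_mem_closure x (frontier_subset_closure hx) θ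
    exact h1.unique h2
  · intro b hb θ
    rw [hg' b hb, hg' b hb]
    exact t0b_G_periodic H₀ ⟨b, hb⟩ θ
  · intro θ b hb b' hb' hbb
    simp only
    rw [hg' b hb, hg' b' hb']
    exact t0b_G_anti C θ (show (⟨b, hb⟩ : Set.Ico (0 : ℝ) 1) < ⟨b', hb'⟩ from hbb)
  · intro b hb θ θ' h1 h2 e
    have hbI : b ∈ Set.Ico (0 : ℝ) 1 := ⟨hb.1.le, hb.2⟩
    rw [hg' b hbI] at e ⊢
    refine t0b_caustic_inv T P (c ⟨b, hbI⟩ hb.1) (ℓ ⟨b, hbI⟩ hb.1) (hc ⟨b, hbI⟩ hb.1) (t0bG H₀ ⟨b, hbI⟩) (fun φ => ?_)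
      θ θ' h1 h2 e
    rw [hrange ⟨b, hbI⟩ hb.1]
    exact t0b_G_isGreatest H₀ ⟨b, hbI⟩ φ

/-- **T0** (`stage_T0` of Stages.lean). -/
theorem t0_stage (Ω : Set (ℝ × ℝ)) (γ : ℝ → ℝ × ℝ) (L : ℝ)
    (hΩo : IsOpen Ω) (hΩb : Bornology.IsBounded Ω) (hΩc : StrictConvex ℝ (closure Ω))
    (hγ : Claims.C0438.IsSmoothSimpleClosedRegular γ L) (hbd : frontier Ω = Set.range γ)
    (hcurv : ∀ t, Claims.C0438.det2 (deriv γ t) (deriv (deriv γ) t) ≠ 0)
    (hcollar : Claims.C0438.HasCausticCollar Ω γ) :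
    ∃ (c₀ : ℝ × ℝ) (h : ℝ → ℝ), IsSupport h ∧ Ω = tableOf c₀ h ∧ GlancingRigid h := by
  obtain ⟨hL, hsm, hper, hinj, hreg⟩ := hγ
  have T : IsTable Ω γ L := ⟨hΩo, hΩb, hΩc, hL, hsm, hper, hinj, hreg, hbd, hcurv⟩
  obtain ⟨h, ν, σ, P⟩ := t0a_main T
  obtain ⟨g, hg⟩ := t0b_main T P hcollar
  exact ⟨0, h, P.supp, P.table, t0c_rigid P.supp hg⟩

end Claimed.Agent.R269
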